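import Crest.Agent.X212.Lt44.Cyc
import Crest.Agent.X212.Lad50.Sd
import Crest.Agent.X212.Dsc37.Tw
import Crest.Agent.X212.Geo46.Defs
import Crest.Agent.X212.Tw9.Ch
import Crest.Agent.X212.Srf12.Loc
import Crest.Agent.R096.Bd1_416
import Crest.Agent.X212.Geo46.Api
import Crest.Agent.R096.Pb1_715
import Crest.Agent.X212.Tw9.Defs
import Crest.Agent.X212.Lev33.Nice

-- ▼ part X212/Lt44/Top
section

/-!
# Combinatorial loop theorem: the TOP of the tower (helper44)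
-/

set_option autoImplicit false

namespace Crest.Agent.X212.Lt44

open Crest.Agent.X212.Dsc37

theorem sm_sum {ι κ : Type*} [Fintype ι] [Fintype κ] (P : ι ⊕ κ → Prop) (a : ι ⊕ κ → ZMod 2) :
    sm P a = sm (fun i => P (.inl i)) (fun i => a (.inl i)) +
      sm (fun j => P (.inr j)) (fun j => a (.inr j)) := by
  unfold sm
  rw [Fintype.sum_sum_type]

variable {G : Type} {X : Dat G} [AddGroup G]

theorem const_triF (hO : X.OK) (hL : X.Loc) (hC : Conn sub X.Fg) {u : Finset X.V → ZMod 2}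
    (hu : ∀ e, Sx X 2 e → Mt X.A e → sm (fun t => Sx X 3 t ∧ t ∈ X.F ∧ e ⊆ t) u = 0) :
    ∃ k, ∀ t, Sx X 3 t → t ∈ X.F → Mt X.A t → u t = k := by
  have ex2 : ∀ σ ∈ X.F, Mt X.A σ → 2 ≤ σ.card → ∃ t, Sx X 3 t ∧ t ∈ X.F ∧ σ ⊆ t := by
    intro σ hσ hm hc
    by_cases h2 : σ.card = 2
    · obtain ⟨x, y, -, h⟩ := two_tri hO h2 hm hσ
      exact ⟨x, (h x).2 (Or.inl rfl)⟩
    · have := hO.dimF σ hσ
      exact ⟨σ, ⟨hO.FK hσ, by omega⟩, hσ, subset_rfl⟩
  have un2 : ∀ σ ∈ X.F, Mt X.A σ → 2 ≤ σ.card → ∀ t t', Sx X 3 t ∧ t ∈ X.F ∧ σ ⊆ t →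
      Sx X 3 t' ∧ t' ∈ X.F ∧ σ ⊆ t' → u t = u t' := by
    intro σ hσ hm hc t t' ht ht'
    by_cases h2 : σ.card = 2
    · obtain ⟨x, y, hxy, h⟩ := two_tri hO h2 hm hσ
      have h0 := hu σ ⟨hO.FK hσ, h2⟩ hm
      rw [sm_two hxy h, z2e] at h0
      rcases (h t).1 ht with rfl | rfl <;> rcases (h t').1 ht' with k | k <;> simp [k, h0]
    · rw [← eq_of_card ht.2.2 (by rw [ht.1.2]; omega), ← eq_of_card ht'.2.2 (by rw [ht'.1.2]; omega)]
  have big : ∀ (a : X.V) (σ : Finset X.V), a ∈ σ → σ ≠ {a} → 2 ≤ σ.card := fun a σ k2 k3 => by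
    have := Finset.card_lt_card (Finset.ssubset_iff_subset_ne.2
      ⟨Finset.singleton_subset_iff.2 k2, k3.symm⟩)
    rw [Finset.card_singleton] at this
    omega
  have sing : ∀ σ ∈ X.F, Mt X.A σ → ¬ 2 ≤ σ.card → ∃ a ∈ X.A, σ = {a} := by
    rintro σ - ⟨a, ha, hA⟩ hc
    exact ⟨a, hA, by_contra fun h => hc (big a σ ha h)⟩
  have ex : ∀ σ ∈ X.F, Mt X.A σ → ∃ t, Sx X 3 t ∧ t ∈ X.F ∧ σ ⊆ t := by
    intro σ hσ hm
    by_cases hc : 2 ≤ σ.card
    · exact ex2 σ hσ hm hc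
    obtain ⟨a, ha, rfl⟩ := sing σ hσ hm hc
    obtain ⟨ρ, k1, k2, k3⟩ := (hL.vertF a ha hσ).1
    obtain ⟨t, j1, j2, j3⟩ := ex2 ρ k1 ⟨a, k2, ha⟩ (big a ρ k2 k3)
    exact ⟨t, j1, j2, (Finset.singleton_subset_iff.2 k2).trans j3⟩
  have prop : ∀ (W : Set (Finset X.V)), Conn sub W → (∀ σ ∈ W, σ ∈ X.F ∧ Mt X.A σ) →
      (∀ σ ∈ W, ∀ t t', Sx X 3 t ∧ t ∈ X.F ∧ σ ⊆ t → Sx X 3 t' ∧ t' ∈ X.F ∧ σ ⊆ t' → u t = u t') →
      ∀ t ∈ W, ∀ t' ∈ W, Sx X 3 t → Sx X 3 t' → u t = u t' := by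
    intro W hW hF hun t ht t' ht' s s'
    have key := hW.2 (fun σ => ∃ v, (Sx X 3 v ∧ v ∈ X.F ∧ σ ⊆ v) ∧ u v = u t) ?_ t ht t' ht'
    · obtain ⟨v, hv, h⟩ := key.1 ⟨t, ⟨s, (hF t ht).1, subset_rfl⟩, rfl⟩
      rw [← h, eq_of_card hv.2.2 (by rw [hv.1.2, s'.2])]
    · intro σ hσ ρ hρ hs
      constructor
      · rintro ⟨v, hv, h⟩
        obtain ⟨v', hv'⟩ := ex ρ (hF ρ hρ).1 (hF ρ hρ).2
        exact ⟨v', hv', (hun σ hσ v' v ⟨hv'.1, hv'.2.1, hs.trans hv'.2.2⟩ hv).trans h⟩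
      · rintro ⟨v, hv, h⟩
        exact ⟨v, ⟨hv.1, hv.2.1, hs.trans hv.2.2⟩, h⟩
  have un : ∀ σ ∈ X.Fg, ∀ t t', Sx X 3 t ∧ t ∈ X.F ∧ σ ⊆ t →
      Sx X 3 t' ∧ t' ∈ X.F ∧ σ ⊆ t' → u t = u t' := by
    rintro σ ⟨hσ, hm⟩ t t' ht ht'
    by_cases hc : 2 ≤ σ.card
    · exact un2 σ hσ hm hc t t' ht ht'
    obtain ⟨a, ha, rfl⟩ := sing σ hσ hm hc
    have ne : ∀ t, Sx X 3 t → t ≠ {a} := fun t ht h => by have := ht.2; simp [h] at this
    exact prop _ (hL.vertF a ha hσ) (fun σ k => ⟨k.1, a, k.2.1, ha⟩)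
      (fun σ k => un2 σ k.1 ⟨a, k.2.1, ha⟩ (big a σ k.2.1 k.2.2))
      t ⟨ht.2.1, Finset.singleton_subset_iff.1 ht.2.2, ne t ht.1⟩
      t' ⟨ht'.2.1, Finset.singleton_subset_iff.1 ht'.2.2, ne t' ht'.1⟩ ht.1 ht'.1
  obtain ⟨σ, hσ, hm⟩ := hC.1
  obtain ⟨t0, k1, k2, k3⟩ := ex σ hσ hm
  exact ⟨u t0, fun t j1 j2 j3 =>
    prop _ hC (fun _ k => k) un t ⟨j2, j3⟩ t0 ⟨k2, Mt.mono hm k3⟩ j1 k1⟩

/-- **(b)** the frontier has no `H^1` -/
theorem h0_Zm (hO : X.OK) (hL : X.Loc) (hH : H1On X.K X.A) (hC : Conn sub X.Fg) :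
    H0 sub (Zm X) := by
  intro c hc
  obtain ⟨β, hβ⟩ := d0 (fun e => Sx X 2 e ∧ Mix X e) (fun t => Sx X 3 t ∧ Mix X t)
    (fun e t => e ⊆ t) (fun t => sm (fun e => (Sx X 2 e ∧ Mix X e) ∧ e ⊆ t) fun e => c e t)
    (fun a ha => by
      obtain ⟨y, yw, h1, h2, h3⟩ := cyc_bound hO hL hH (am := a) (aw := fun _ => 0)
        (fun _ _ => rfl) (fun e he hm => by rw [ha e ⟨he, hm⟩, add_zero])
        fun _ _ => sm_zero fun _ _ => rfl
      obtain ⟨k, hk⟩ := const_triF hO hL hC fun e he hm => (h3 e he hm).symm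
      have h4 : ∀ t, Sx X 3 t ∧ Mix X t → a t = sm (fun T => Sx X 4 T ∧ t ⊆ T) fun T => y T + k := by
        rintro t ⟨ht, hm⟩
        rw [h1 t ht hm, sm_add]
        congr 1
        by_cases hF : t ∈ X.F
        · obtain ⟨x, hx⟩ := one_tet hO ht hm.1 hF
          rw [sm_one hx, hk t ht hF hm.1]
        · rw [h2 t ht hm.1 hF, sm_const_two (two_tet hO ht hm.1 hF)]
      rw [sm_congr (fun _ => Iff.rfl) fun t ht => by rw [h4 t ht, mul_sm],
        sm_comm _ (fun t T => Sx X 4 T ∧ t ⊆ T) (fun T => Sx X 4 T) _ fun _ _ _ h => h.1]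
      refine sm_zero fun T hT => ?_
      rw [← sm_mul]
      refine mul_eq_zero_of_left ?_ _
      have e1 : ∀ t, (Sx X 3 t ∧ Mix X t) ∧ Sx X 4 T ∧ t ⊆ T →
          sm (fun e => (Sx X 2 e ∧ Mix X e) ∧ e ⊆ t) (fun e => c e t)
            = sm (fun e => (Sx X 2 e ∧ Mix X e) ∧ e ⊆ t) fun e => c e T := by
        rintro t ⟨⟨ht, hm⟩, -, s⟩
        rw [sm_congr (b := fun e => c e t + c t T) (a := fun e => c e T) (fun _ => Iff.rfl)
          fun e he => hc e ⟨he.1.1.1, he.1.2⟩ t ⟨ht.1, hm⟩ T ⟨hT.1, hm.mono s⟩ he.2 s,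
          sm_add, sm_const_two (two_mix hO ht hm), add_zero]
      rw [sm_congr (fun _ => Iff.rfl) e1, sm_comm _ (fun t e => (Sx X 2 e ∧ Mix X e) ∧ e ⊆ t)
        (fun e => (Sx X 2 e ∧ Mix X e) ∧ e ⊆ T) (fun _ e => c e T)
        fun t e ht he => ⟨he.1, he.2.trans ht.2.2⟩]
      refine sm_zero fun e he => sm_const_two ?_ _
      obtain ⟨x, y, hxy, h⟩ := btw hO (n := 2) hT he.1.1.2 he.2
      refine ⟨x, y, hxy, fun t => ?_⟩
      rw [← h]
      exact ⟨fun k => ⟨k.1.1.1, k.2.2, k.1.2.2⟩,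
        fun k => ⟨⟨⟨k.1, he.1.2.mono k.2.1⟩, hT, k.2.2⟩, he.1, k.2.1⟩⟩)
  obtain ⟨l, hl, -⟩ := ext_pot hO hc (β := β) fun t ht hm => by
    rw [sm_add, ← hβ t ⟨ht, hm⟩, z2]
  exact ⟨l, hl⟩

/-- an edge cocycle of the good boundary has a potential which is constant on the frontier -/
theorem coh0 (hO : X.OK) (hL : X.Loc) (hH : H1On X.K X.A) {α : Finset X.V → ZMod 2}
    (hα : ∀ t, Sx X 3 t → t ∈ X.F → Mt X.A t →
      sm (fun e => (Sx X 2 e ∧ Mt X.A e) ∧ e ⊆ t) α = 0) :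
    ∃ (bw : X.V → ZMod 2) (bm : Finset X.V → ZMod 2),
      (∀ x ∈ Zm X, ∀ y ∈ Zm X, x ⊆ y → bm y = bm x) ∧
      (∀ a ∈ X.A, ∀ b ∈ X.A, a ≠ b → {a, b} ∈ X.F → α {a, b} = bw a + bw b) ∧
      ∀ a ∈ X.A, ∀ x ∉ X.A, {a, x} ∈ X.F → α {a, x} = bw a + bm {a, x} := by
  classical
  obtain ⟨β, hβ⟩ := d0 (ι := Finset X.V ⊕ X.V) (κ := Finset X.V ⊕ Finset X.V)
    (Sum.elim (fun e => Sx X 2 e ∧ Mix X e) fun a => a ∈ X.A)
    (Sum.elim (fun t => Sx X 3 t ∧ Mix X t) fun e => Sx X 2 e ∧ Mt X.A e ∧ e ∈ X.F)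
    (Sum.elim (fun e => Sum.elim (fun t => e ⊆ t) fun e' => e' = e)
      fun a => Sum.elim (fun _ => False) fun e => a ∈ e)
    (Sum.elim (fun _ => 0) α) (fun a ha => by
      obtain ⟨y, yw, -, -, h3⟩ := cyc_bound hO hL hH (am := fun t => a (.inl t))
        (aw := fun e => if e ∈ X.F then a (.inr e) else 0) (fun e he => if_neg he)
        (fun e he hm => by
          have := ha (.inl e) ⟨he, hm⟩
          rw [sm_sum] at this
          simp only [Sum.elim_inl, Sum.elim_inr] at this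
          refine Eq.trans ?_ this
          congr 1
          by_cases hF : e ∈ X.F
          · rw [if_pos hF, sm_one (x := e) fun j => ⟨fun k => k.2, fun k => ⟨k ▸ ⟨he, hm.1, hF⟩, k⟩⟩]
          · rw [if_neg hF]
            symm
            refine sm_zero ?_
            rintro j ⟨k1, rfl⟩
            exact absurd k1.2.2 hF)
        fun b hb => by
          have := ha (.inr b) hb
          rw [sm_sum] at this
          simp only [Sum.elim_inl, Sum.elim_inr] at this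
          rw [sm_zero fun j k => k.2.elim, zero_add] at this
          rw [sm_drop (Q := fun e => e ∈ X.F) fun e _ h => if_neg h]
          refine Eq.trans ?_ this
          exact sm_congr (fun e => ⟨fun k => ⟨⟨k.1.1, ⟨b, k.1.2, hb⟩, k.2⟩, k.1.2⟩,
            fun k => ⟨⟨k.1.1, k.2⟩, k.1.2.2⟩⟩) fun e k => if_pos k.1.2.2
      rw [sm_sum]
      simp only [Sum.elim_inl, Sum.elim_inr]
      have e1 : ∀ e, Sx X 2 e ∧ Mt X.A e ∧ e ∈ X.F → α e * a (.inr e)
          = sm (fun t => Sx X 3 t ∧ t ∈ X.F ∧ e ⊆ t) fun t => α e * yw t := fun e he => by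
        have := h3 e he.1 he.2.1
        rw [if_pos he.2.2] at this
        rw [this, mul_sm]
      rw [sm_zero fun j _ => zero_mul _, zero_add, sm_congr (fun _ => Iff.rfl) e1,
        sm_comm _ (fun e t => Sx X 3 t ∧ t ∈ X.F ∧ e ⊆ t)
          (fun t => Sx X 3 t ∧ t ∈ X.F ∧ Mt X.A t) _
          fun e t he ht => ⟨ht.1, ht.2.1, Mt.mono he.2.1 ht.2.2⟩]
      refine sm_zero fun t ht => ?_
      rw [← sm_mul]
      refine mul_eq_zero_of_left ?_ _
      rw [← hα t ht.1 ht.2.1 ht.2.2]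
      exact sm_congr (fun e => ⟨fun k => ⟨⟨k.1.1, k.1.2.1⟩, k.2.2.2⟩, fun k =>
        ⟨⟨k.1.1, k.1.2, hO.cxF.down t ht.2.1 e k.2 (Finset.card_pos.1 (by rw [k.1.1.2]; omega))⟩,
          ht.1, ht.2.1, k.2⟩⟩) fun _ _ => rfl)
  obtain ⟨l, hl, hl'⟩ := ext_pot hO (c := fun _ _ => 0) (fun _ _ _ _ _ _ _ _ => (add_zero _).symm)
    (β := fun e => β (.inl e)) fun t ht hm => by
      have := hβ (.inl t) ⟨ht, hm⟩
      rw [sm_sum] at this
      simp only [Sum.elim_inl, Sum.elim_inr] at this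
      rw [sm_zero (ι := X.V) fun j k => k.2.elim, add_zero] at this
      simp only [add_zero, ← this]
  refine ⟨fun a => β (.inr a), l, fun x hx y hy s => by rw [hl x hx y hy s, add_zero],
    fun a ha b hb hab hF => ?_, fun a ha x hx hF => ?_⟩
  · have := hβ (.inr {a, b}) ⟨⟨hO.FK hF, Finset.card_pair hab⟩, ⟨a, by simp, ha⟩, hF⟩
    rw [sm_sum] at this
    simp only [Sum.elim_inl, Sum.elim_inr] at this
    rw [this, sm_zero, zero_add, sm_two hab]
    · intro j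
      simp only [Finset.mem_insert, Finset.mem_singleton]
      exact ⟨fun k => k.2, fun k => ⟨by rcases k with rfl | rfl <;> assumption, k⟩⟩
    · rintro e ⟨k1, rfl⟩
      exact absurd (fun u hu => by simp at hu; rcases hu with rfl | rfl <;> assumption) k1.2.2
  · have hax : a ≠ x := fun h => hx (h ▸ ha)
    have hs : Sx X 2 {a, x} := ⟨hO.FK hF, Finset.card_pair hax⟩
    have := hβ (.inr {a, x}) ⟨hs, ⟨a, by simp, ha⟩, hF⟩
    rw [sm_sum] at this
    simp only [Sum.elim_inl, Sum.elim_inr] at this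
    rw [this, sm_one (x := ({a, x} : Finset X.V)), sm_one (x := a), hl' _ hs (mix_pair ha hx),
      add_comm]
    · intro j
      simp only [Finset.mem_insert, Finset.mem_singleton]
      exact ⟨fun k => k.2.resolve_right fun h => hx (h ▸ k.1), fun k => ⟨k ▸ ha, Or.inl k⟩⟩
    · exact fun j => ⟨fun k => k.2.symm, fun k => ⟨k ▸ ⟨hs, mix_pair ha hx⟩, k.symm⟩⟩

/-- the mixed boundary simplices -/
def ZF (X : Dat G) : Set (Finset X.V) := {σ | σ ∈ X.F ∧ Mix X σ}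

open Classical in
/-- value of a potential at the vertex `x` of `σ` -/
noncomputable def ph (X : Dat G) (lw : X.V → G) (lm : Finset X.V → G) (σ : Finset X.V)
    (x : X.V) : G := if x ∈ X.A then lw x + X.g {x} σ else lm σ

/-- **(c)** trivial on the boundary curves implies trivial -/
theorem cob_Fg (hO : X.OK) (hL : X.Loc) (hH : H1On X.K X.A) (h : Cob sub (ZF X) X.g) :
    Cob sub X.Fg X.g := by
  classical
  let Bad : (X.V → G) → (Finset X.V → G) → Finset X.V → Prop := fun lw lm e =>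
    Sx X 2 e ∧ Mt X.A e ∧ e ∈ X.F ∧ ∃ x ∈ e, ∃ y ∈ e, ph X lw lm e x ≠ ph X lw lm e y
  have sF : ∀ σ ∈ X.F, ∀ x ∈ σ, x ∈ X.A → {x} ∈ X.Fg := fun σ hσ x hx hA =>
    ⟨hO.cxF.down σ hσ _ (Finset.singleton_subset_iff.2 hx) (by simp), x, by simp, hA⟩
  have main : ∀ n, ∀ lw lm, (∀ x ∈ ZF X, ∀ y ∈ ZF X, x ⊆ y → lm y = lm x + X.g x y) →
      {e | Bad lw lm e}.ncard = n → Cob sub X.Fg X.g := by
    intro n
    induction n using Nat.strong_induction_on with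
    | _ n ih =>
    intro lw lm adm hn
    have up : ∀ e ∈ X.F, Mt X.A e → ∀ t ∈ X.F, e ⊆ t → ∀ x ∈ e,
        ph X lw lm t x = ph X lw lm e x + X.g e t := by
      intro e he hm t ht s x hx
      by_cases hA : x ∈ X.A
      · simp only [ph, hA, if_true, add_assoc]
        rw [hO.coc _ (sF e he x hx hA) e ⟨he, hm⟩ t ⟨ht, Mt.mono hm s⟩
          (Finset.singleton_subset_iff.2 hx) s]
      · simp only [ph, hA, if_false]
        have m : Mix X e := ⟨hm, fun k => hA (k x hx)⟩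
        exact adm e ⟨he, m⟩ t ⟨ht, m.mono s⟩ s
    have toBad : ∀ t ∈ X.F, ∀ x ∈ t, ∀ y ∈ t, ph X lw lm t x ≠ ph X lw lm t y →
        Bad lw lm {x, y} := by
      intro t ht x hx y hy hne
      have hxy : x ≠ y := fun h => hne (h ▸ rfl)
      have hF := hO.cxF.down t ht _ (pair_sub hx hy) (by simp)
      have hm : Mt X.A {x, y} := by
        by_contra hm
        have k1 : x ∉ X.A := fun k => hm ⟨x, by simp, k⟩
        have k2 : y ∉ X.A := fun k => hm ⟨y, by simp, k⟩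
        exact hne (by simp [ph, k1, k2])
      refine ⟨⟨hO.FK hF, Finset.card_pair hxy⟩, hm, hF, x, by simp, y, by simp, fun k => hne ?_⟩
      rw [up _ hF hm t ht (pair_sub hx hy) x (by simp), up _ hF hm t ht (pair_sub hx hy) y (by simp),
        k]
    by_cases hB : ∃ e, Bad lw lm e
    swap
    · have ex : ∀ σ : Finset X.V, ∃ v : G, ∀ a ∈ σ, a ∈ X.A → σ ∈ X.F → v = ph X lw lm σ a := by
        intro σ
        by_cases hm : Mt X.A σ
        · obtain ⟨a, ha, -⟩ := hm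
          exact ⟨ph X lw lm σ a, fun b hb _ hF =>
            by_contra fun k => hB ⟨_, toBad σ hF a ha b hb k⟩⟩
        · exact ⟨0, fun a ha hA => absurd ⟨a, ha, hA⟩ hm⟩
      choose L hL' using ex
      refine ⟨L, fun σ hσ ρ hρ s => ?_⟩
      obtain ⟨a, ha, hA⟩ := hσ.2
      rw [hL' σ a ha hA hσ.1, hL' ρ a (s ha) hA hρ.1, up σ hσ.1 hσ.2 ρ hρ.1 s a ha]
    obtain ⟨a, ha0, ⟨e0, he0⟩, ha⟩ := even_sub (Bad lw lm) (fun e t => Sx X 3 t ∧ t ∈ X.F ∧ e ⊆ t)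
      hB (fun e he => two_tri hO he.1.2 he.2.1 he.2.2.1) (by
        rintro t e ⟨k1, k2, k3, x, hx, y, hy, hne⟩ ⟨j1, j2, j3⟩
        obtain ⟨z, hz, hze⟩ := Finset.exists_mem_notMem_of_card_lt_card (s := e) (t := t)
          (by rw [k1.2, j1.2]; omega)
        have hne' : ph X lw lm t x ≠ ph X lw lm t y := by
          rw [up e k3 k2 t j2 j3 x hx, up e k3 k2 t j2 j3 y hy]
          exact fun k => hne (add_right_cancel k)
        by_cases hq : ph X lw lm t x = ph X lw lm t z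
        · exact ⟨{y, z}, fun k => hze (k ▸ by simp), toBad t j2 y (j3 hy) z hz
            (fun k => hne' (hq.trans k.symm)), j1, j2, pair_sub (j3 hy) hz⟩
        · exact ⟨{x, z}, fun k => hze (k ▸ by simp), toBad t j2 x (j3 hx) z hz hq, j1, j2,
            pair_sub (j3 hx) hz⟩)
    obtain ⟨bw, bm, b1, b2, b3⟩ := coh0 hO hL hH (α := a) fun t ht hF _ => by
      rw [sm_drop (Q := Bad lw lm) fun e _ k => ha0 e k, ← ha t]
      exact sm_congr (fun e => ⟨fun k => ⟨k.2, ht, hF, k.1.2⟩,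
        fun k => ⟨⟨⟨k.1.1, k.1.2.1⟩, k.2.2.2⟩, k.1⟩⟩) fun _ _ => rfl
    let ps : Finset X.V → X.V → ZMod 2 := fun e x => if x ∈ X.A then bw x else bm e
    have hps : ∀ x y, x ≠ y → {x, y} ∈ X.F → Mt X.A {x, y} →
        a {x, y} = ps {x, y} x + ps {x, y} y := by
      intro x y hxy hF hm
      by_cases k1 : x ∈ X.A <;> by_cases k2 : y ∈ X.A <;> simp only [ps, k1, k2, if_true, if_false]
      · exact b2 x k1 y k2 hxy hF
      · exact b3 x k1 y k2 hF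
      · rw [Finset.pair_comm] at hF ⊢
        rw [b3 y k2 x k1 hF, add_comm]
      · obtain ⟨u, hu, hA⟩ := hm
        simp at hu
        rcases hu with rfl | rfl <;> contradiction
    have B0 : Bad lw lm e0 := by_contra fun k => he0 (ha0 e0 k)
    obtain ⟨x0, y0, hxy0, rfl⟩ := Finset.card_eq_two.1 B0.1.2
    have hne0 : ps {x0, y0} y0 ≠ ps {x0, y0} x0 := fun k =>
      he0 (by rw [hps x0 y0 hxy0 B0.2.2.1 B0.2.1, k, z2])
    let c : G := ph X lw lm {x0, y0} y0 - ph X lw lm {x0, y0} x0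
    let s : ZMod 2 → G := fun v => if v = ps {x0, y0} x0 then c else 0
    have hph : ∀ e x, ph X (fun x => s (bw x) + lw x) (fun σ => s (bm σ) + lm σ) e x
        = s (ps e x) + ph X lw lm e x := by
      intro e x
      by_cases k : x ∈ X.A <;> simp only [ph, ps, k, if_true, if_false, add_assoc]
    refine ih _ ?_ (fun x => s (bw x) + lw x) (fun σ => s (bm σ) + lm σ)
      (fun x hx y hy sxy => ?_) rfl
    · rw [← hn]
      refine Set.ncard_lt_ncard ⟨fun e he => ?_, fun hh => ?_⟩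
      · obtain ⟨k1, k2, k3, x, hx, y, hy, hne⟩ := he
        by_contra hb
        have hxy : x ≠ y := fun h => hne (h ▸ rfl)
        have ee : {x, y} = e := eq_of_card (pair_sub hx hy) (by rw [k1.2, Finset.card_pair hxy])
        subst ee
        have h1 := ha0 _ hb
        rw [hps x y hxy k3 k2, z2e] at h1
        have h2 : ph X lw lm {x, y} x = ph X lw lm {x, y} y :=
          by_contra fun k => hb ⟨k1, k2, k3, x, hx, y, hy, k⟩
        exact hne (by rw [hph, hph, h1, h2])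
      · obtain ⟨-, -, -, x, hx, y, hy, hne⟩ := hh B0
        have h1 : s (ps {x0, y0} x0) + ph X lw lm {x0, y0} x0
            = s (ps {x0, y0} y0) + ph X lw lm {x0, y0} y0 := by
          simp only [s, c, if_true, hne0, if_false, zero_add, sub_add_cancel]
        rw [hph, hph] at hne
        simp only [Finset.mem_insert, Finset.mem_singleton] at hx hy
        rcases hx with rfl | rfl <;> rcases hy with rfl | rfl
        · exact hne rfl
        · exact hne h1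
        · exact hne h1.symm
        · exact hne rfl
    · simp only [b1 x ⟨hO.FK hx.1, hx.2⟩ y ⟨hO.FK hy.1, hy.2⟩ sxy, adm x hx y hy sxy, add_assoc]
  obtain ⟨lm, hlm⟩ := h
  exact main _ (fun _ => 0) lm hlm rfl

/-- component of `σ` in `W` -/
def cmp {V : Type*} (W : Set (Finset V)) (σ : Finset V) : Set (Finset V) :=
  {ρ | Relation.ReflTransGen (fun x y => x ∈ W ∧ y ∈ W ∧ (x ⊆ y ∨ y ⊆ x)) σ ρ}

section
variable {V : Type*} {W : Set (Finset V)} {σ ρ π : Finset V}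

theorem cmp_self : σ ∈ cmp W σ := Relation.ReflTransGen.refl

theorem cmp_sub (h : σ ∈ W) : cmp W σ ⊆ W := fun ρ hρ => by
  induction hρ with
  | refl => exact h
  | tail _ k _ => exact k.2.1

theorem cmp_step (h : σ ∈ W) (hρ : ρ ∈ cmp W σ) (hπ : π ∈ W) (s : ρ ⊆ π ∨ π ⊆ ρ) :
    π ∈ cmp W σ := Relation.ReflTransGen.tail hρ ⟨cmp_sub h hρ, hπ, s⟩

theorem cmp_eq (h : σ ∈ W) (hρ : ρ ∈ W) (s : σ ⊆ ρ) : cmp W σ = cmp W ρ :=
  Set.Subset.antisymm (fun _ k => Relation.ReflTransGen.head ⟨hρ, h, Or.inr s⟩ k)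
    fun _ k => Relation.ReflTransGen.head ⟨h, hρ, Or.inl s⟩ k

theorem cmp_conn : Conn sub (cmp W σ) := by
  refine ⟨⟨σ, cmp_self⟩, fun κ hκ => ?_⟩
  have key : ∀ x ∈ cmp W σ, (κ σ ↔ κ x) := fun x hx => by
    induction hx with
    | refl => rfl
    | tail k1 k2 ih =>
      rcases k2.2.2 with s | s
      · exact ih.trans (hκ _ k1 _ (Relation.ReflTransGen.tail k1 k2) s)
      · exact ih.trans (hκ _ (Relation.ReflTransGen.tail k1 k2) _ k1 s).symm
  exact fun x hx y hy => (key x hx).symm.trans (key y hy)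

end

/-- **TOP** -/
theorem top : TopStmt := by
  classical
  intro G _ X hO hL hH hC hess
  have ex : ∃ σ ∈ ZF X, ¬ Cob sub {ρ | ρ ∈ X.F ∧ ρ ∈ cmp (Zm X) σ} X.g := by
    by_contra hcon
    push Not at hcon
    have h1 : ∀ C : Set (Finset X.V), ∃ l : Finset X.V → G, (∃ σ ∈ ZF X, cmp (Zm X) σ = C) →
        ∀ x ∈ X.F, x ∈ C → ∀ y ∈ X.F, y ∈ C → x ⊆ y → l y = l x + X.g x y := by
      intro C
      by_cases h : ∃ σ ∈ ZF X, cmp (Zm X) σ = C
      · obtain ⟨σ, hσ, rfl⟩ := h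
        obtain ⟨l, hl⟩ := hcon σ hσ
        exact ⟨l, fun _ x k1 k2 y k3 k4 s => hl x ⟨k1, k2⟩ y ⟨k3, k4⟩ s⟩
      · exact ⟨0, fun k => absurd k h⟩
    choose l hl using h1
    refine hess (cob_Fg hO hL hH ⟨fun σ => l (cmp (Zm X) σ) σ, fun x hx y hy s => ?_⟩)
    have e := cmp_eq (W := Zm X) ⟨hO.FK hx.1, hx.2⟩ ⟨hO.FK hy.1, hy.2⟩ s
    simp only [← e]
    exact hl _ ⟨x, hx, rfl⟩ x hx.1 cmp_self y hy.1 (e ▸ cmp_self) s
  obtain ⟨σ0, h0, hne⟩ := ex
  have z0 : σ0 ∈ Zm X := ⟨hO.FK h0.1, h0.2⟩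
  set Q := cmp (Zm X) σ0 with hQ
  have QZ : Q ⊆ Zm X := cmp_sub z0
  let χ : X.V → ZMod 2 := fun x => if x ∈ X.A then 1 else 0
  let w : X.V → X.V → ZMod 2 := fun x y => if {x, y} ∈ Q then 1 else 0
  have w1 : ∀ σ ∈ Q, ∀ x ∈ σ, ∀ y ∈ σ, w x y = χ x + χ y := by
    intro σ hσ x hx y hy
    have hK := hO.cxK.down σ (QZ hσ).1 _ (pair_sub hx hy) (by simp)
    have hq : {x, y} ∈ Q ↔ Mix X {x, y} :=
      ⟨fun k => (QZ k).2, fun k => cmp_step z0 hσ ⟨hK, k⟩ (Or.inr (pair_sub hx hy))⟩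
    simp only [w, χ, hq, Mix, Mt, In]
    by_cases k1 : x ∈ X.A <;> by_cases k2 : y ∈ X.A <;> simp [k1, k2]
    decide
  have w0 : ∀ σ ∈ X.K, ∀ x ∈ σ, ∀ y ∈ σ, w x y ≠ 0 → σ ∈ Q := by
    intro σ hσ x hx y hy hw
    have hq : {x, y} ∈ Q := by_contra fun k => hw (if_neg k)
    exact cmp_step z0 hq ⟨hσ, (QZ hq).2.mono (pair_sub hx hy)⟩ (Or.inl (pair_sub hx hy))
  have mx : ∀ σ ∈ X.K, (Mx w σ ↔ σ ∈ Q) := fun σ hσ =>
    ⟨fun ⟨x, hx, y, hy, h⟩ => w0 σ hσ x hx y hy h, fun h => by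
      obtain ⟨a, ha, x, hx, hA, hx'⟩ := (QZ h).2.ex
      exact ⟨a, ha, x, hx, by rw [w1 σ h a ha x hx]; simp [χ, hA, hx']⟩⟩
  have eK : Sf X.K w = Q := Set.ext fun σ =>
    ⟨fun h => (mx σ h.1).1 h.2, fun h => ⟨(QZ h).1, (mx σ (QZ h).1).2 h⟩⟩
  have eF : Sf X.F w = {ρ | ρ ∈ X.F ∧ ρ ∈ Q} := Set.ext fun σ =>
    ⟨fun h => ⟨h.1, (mx σ (hO.FK h.1)).1 h.2⟩, fun h => ⟨h.1, (mx σ (hO.FK h.1)).2 h.2⟩⟩
  refine ⟨w, fun σ hσ x hx y hy z hz => ?_, fun σ hσ x hx y hy h => ?_, eK ▸ cmp_conn, ?_, ?_,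
    eF ▸ hne⟩
  · by_cases hq : σ ∈ Q
    · rw [w1 σ hq x hx z hz, w1 σ hq x hx y hy, w1 σ hq y hy z hz]
      generalize χ x = p, χ y = q, χ z = r
      revert p q r; decide
    · have k : ∀ x ∈ σ, ∀ y ∈ σ, w x y = 0 := fun x hx y hy =>
        by_contra fun h => hq (w0 σ hσ x hx y hy h)
      rw [k x hx z hz, k x hx y hy, k y hy z hz, add_zero]
  · rw [w1 σ (w0 σ hσ x hx y hy h) x hx y hy] at h
    by_contra k
    rw [not_or] at k
    simp [χ, k.1, k.2] at h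
  · rw [eK]
    intro c hc
    obtain ⟨l, hl⟩ := h0_Zm hO hL hH hC (fun x y => if x ∈ Q then c x y else 0) (by
      intro x hx y hy z hz s1 s2
      by_cases hq : x ∈ Q
      · have k1 := cmp_step z0 hq hy (Or.inl s1)
        have k2 := cmp_step z0 k1 hz (Or.inl s2)
        simp only [hq, hQ ▸ k1, if_true]
        exact hc x hq y k1 z k2 s1 s2
      · have k1 : y ∉ Q := fun k => hq (cmp_step z0 k hx (Or.inr s1))
        simp [hq, k1])
    exact ⟨l, fun x hx y hy s => by simpa [hx] using hl x (QZ hx) y (QZ hy) s⟩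
  · rw [eF]
    refine ⟨⟨σ0, h0.1, cmp_self⟩, fun κ hκ => ?_⟩
    obtain ⟨bw, bm, b1, b2, b3⟩ := coh0 hO hL hH (α := fun e => if e ∈ Q ∧ κ e then 1 else 0)
      fun t ht hF hm => by
        by_cases hq : t ∈ Q
        · obtain ⟨x, y, hxy, h⟩ := two_mix hO ht (QZ hq).2
          have val : ∀ e, (Sx X 2 e ∧ Mix X e) ∧ e ⊆ t →
              (if e ∈ Q ∧ κ e then (1 : ZMod 2) else 0) = if κ t then 1 else 0 := fun e k => by
            have k1 : e ∈ Q := cmp_step z0 hq ⟨k.1.1.1, k.1.2⟩ (Or.inr k.2)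
            have k2 := hO.cxF.down t hF e k.2 (Finset.card_pos.1 (by rw [k.1.1.2]; omega))
            simp only [k1, true_and, hκ e ⟨k2, k1⟩ t ⟨hF, hq⟩ k.2]
          rw [sm_drop (Q := Mix X) fun e _ k => if_neg fun j => k (QZ j.1).2,
            sm_congr (Q := fun e => (Sx X 2 e ∧ Mix X e) ∧ e ⊆ t)
              (fun e => ⟨fun k => ⟨⟨k.1.1.1, k.2⟩, k.1.2⟩, fun k => ⟨⟨⟨k.1.1, k.1.2.1⟩, k.2⟩, k.1.2⟩⟩)
              val, sm_const_two ⟨x, y, hxy, h⟩]
        · exact sm_zero fun e k => if_neg fun j =>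
            hq (cmp_step z0 j.1 ⟨ht.1, (QZ j.1).2.mono k.2⟩ (Or.inl k.2))
    have same : ∀ σ ∈ X.F, ∀ a ∈ σ, ∀ b ∈ σ, a ∈ X.A → b ∈ X.A → bw a = bw b := by
      intro σ hσ a ha b hb k1 k2
      by_cases hab : a = b
      · rw [hab]
      have := b2 a k1 b k2 hab (hO.cxF.down σ hσ _ (pair_sub ha hb) (by simp))
      rw [if_neg fun j => (QZ j.1).2.2
        (fun u hu => by simp at hu; rcases hu with rfl | rfl <;> assumption)] at this
      exact z2e.1 this.symm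
    have cw : ∀ σ ∈ X.Fg, ∀ ρ ∈ X.Fg, ∀ a ∈ σ, a ∈ X.A → ∀ b ∈ ρ, b ∈ X.A → bw a = bw b := by
      intro σ hσ ρ hρ a ha k1 b hb k2
      have key := hC.2 (fun π => ∃ u ∈ π, u ∈ X.A ∧ bw u = bw a) ?_ σ hσ ρ hρ
      · obtain ⟨u, hu, j1, j2⟩ := key.1 ⟨a, ha, k1, rfl⟩
        rw [← j2, same ρ hρ.1 u hu b hb j1 k2]
      · intro x hx y hy s
        constructor
        · rintro ⟨u, hu, j⟩
          exact ⟨u, s hu, j⟩
        · rintro ⟨u, hu, j1, j2⟩
          obtain ⟨v, hv, hA⟩ := hx.2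
          exact ⟨v, hv, hA, (same y hy.1 v (s hv) u hu hA j1).trans j2⟩
    have cm : ∀ σ ∈ Q, bm σ = bm σ0 := fun σ hσ =>
      ((cmp_conn).2 (fun π => bm π = bm σ0)
        (fun x hx y hy s => by rw [b1 x (QZ hx) y (QZ hy) s]) σ0 cmp_self σ hσ).1 rfl
    obtain ⟨a0, ha0, k0⟩ := h0.2.1
    have fin : ∀ σ ∈ X.F, σ ∈ Q → (κ σ ↔ bw a0 + bm σ0 = 1) := by
      intro σ hσ hq
      obtain ⟨a, ha, x, hx, hA, hx'⟩ := (QZ hq).2.ex
      have hF := hO.cxF.down σ hσ _ (pair_sub ha hx) (by simp)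
      have k1 : {a, x} ∈ Q := cmp_step z0 hq ⟨hO.FK hF, mix_pair hA hx'⟩ (Or.inr (pair_sub ha hx))
      have := b3 a hA x hx' hF
      rw [cm _ k1, cw σ ⟨hσ, a, ha, hA⟩ σ0 ⟨h0.1, h0.2.1⟩ a ha hA a0 ha0 k0] at this
      rw [← this, ← hκ _ ⟨hF, k1⟩ σ ⟨hσ, hq⟩ (pair_sub ha hx)]
      by_cases k : κ {a, x} <;> simp [k, k1]
    exact fun x hx y hy => (fin x hx.1 hx.2).trans (fin y hy.1 hy.2).symm

end Crest.Agent.X212.Lt44
end

-- ▼ part X212/Lt44/Tower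
section

/-!
# Combinatorial loop theorem: the TOWER of folded double covers (helper44)
-/

set_option autoImplicit false

namespace Crest.Agent.X212.Lt44

open Crest.Agent.X212.Dsc37

section Iso
variable {α β : Type*} {r : α → α → Prop} {r' : β → β → Prop} {W : Set α} {W' : Set β}
  {f : α → β}

/-- an isomorphism of relations `W → W'` -/
def RIso (f : α → β) (r : α → α → Prop) (r' : β → β → Prop) (W : Set α) (W' : Set β) : Prop :=
  Set.BijOn f W W' ∧ ∀ x ∈ W, ∀ y ∈ W, (r x y ↔ r' (f x) (f y))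

theorem RIso.inv (h : RIso f r r' W W') (hn : Nonempty α) :
    ∃ k : β → α, (∀ y ∈ W', k y ∈ W ∧ f (k y) = y) ∧ ∀ x ∈ W, k (f x) = x :=
  ⟨Function.invFunOn f W, fun y hy => ⟨Function.invFunOn_mem (h.1.surjOn hy),
    Function.invFunOn_eq (h.1.surjOn hy)⟩, fun _ hx => h.1.injOn.leftInvOn_invFunOn hx⟩

theorem RIso.conn (h : RIso f r r' W W') (hc : Conn r' W') : Conn r W := by
  obtain ⟨y0, hy0⟩ := hc.1
  obtain ⟨x0, hx0, -⟩ := h.1.surjOn hy0
  obtain ⟨k, k1, k2⟩ := h.inv ⟨x0⟩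
  refine ⟨⟨x0, hx0⟩, fun κ hκ x hx y hy => ?_⟩
  have := hc.2 (fun y => κ (k y)) (fun a ha b hb hr => hκ _ (k1 a ha).1 _ (k1 b hb).1
    ((h.2 _ (k1 a ha).1 _ (k1 b hb).1).2 (by rwa [(k1 a ha).2, (k1 b hb).2])))
    (f x) (h.1.mapsTo hx) (f y) (h.1.mapsTo hy)
  simpa only [k2 x hx, k2 y hy] using this

theorem RIso.h0 (h : RIso f r r' W W') (hn : Nonempty α) (hc : H0 r' W') : H0 r W := by
  obtain ⟨k, k1, k2⟩ := h.inv hn
  intro c hcc
  have rk : ∀ a ∈ W', ∀ b ∈ W', r' a b → r (k a) (k b) := fun a ha b hb hr =>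
    (h.2 _ (k1 a ha).1 _ (k1 b hb).1).2 (by rwa [(k1 a ha).2, (k1 b hb).2])
  obtain ⟨l, hl⟩ := hc (fun a b => c (k a) (k b)) fun a ha b hb e he r1 r2 =>
    hcc _ (k1 a ha).1 _ (k1 b hb).1 _ (k1 e he).1 (rk a ha b hb r1) (rk b hb e he r2)
  refine ⟨fun x => l (f x), fun x hx y hy hr => ?_⟩
  have := hl (f x) (h.1.mapsTo hx) (f y) (h.1.mapsTo hy) ((h.2 x hx y hy).1 hr)
  simpa only [k2 x hx, k2 y hy] using this

theorem RIso.ncard (h : RIso f r r' W W') : W.ncard = W'.ncard := by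
  rw [← h.1.image_eq, Set.InjOn.ncard_image h.1.injOn]

end Iso

section Cover
variable {G : Type} {U B : Dat G}

theorem dc_card (d : DC U B) {σ : Finset U.V} (h : σ ∈ U.K) : (σ.image d.p).card = σ.card :=
  Finset.card_image_of_injOn (d.inj σ h)

theorem dc_refl (d : DC U B) (hU : Cx U.K) {a : U.V} (ha : a ∈ d.E) {σ ρ : Finset U.V}
    (hσ : σ ∈ U.K) (hρ : ρ ∈ U.K) (k1 : a ∈ σ) (k2 : a ∈ ρ) :
    σ ⊆ ρ ↔ σ.image d.p ⊆ ρ.image d.p := by
  refine ⟨Finset.image_subset_image, fun h => ?_⟩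
  have m : a ∈ ρ.filter (fun x => d.p x ∈ σ.image d.p) :=
    Finset.mem_filter.2 ⟨k2, Finset.mem_image_of_mem _ k1⟩
  rw [d.uniq a ha σ hσ _ (hU.down ρ hρ _ (Finset.filter_subset _ _) ⟨a, m⟩) k1 m ?_]
  · exact Finset.filter_subset _ _
  · ext y
    constructor
    · intro hy
      obtain ⟨x, hx, rfl⟩ := Finset.mem_image.1 (h hy)
      exact Finset.mem_image_of_mem _ (Finset.mem_filter.2 ⟨hx, hy⟩)
    · intro hy
      obtain ⟨x, hx, rfl⟩ := Finset.mem_image.1 hy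
      exact (Finset.mem_filter.1 hx).2

theorem dc_iso (d : DC U B) (hU : Cx U.K) {a : U.V} (ha : a ∈ d.E) {W : Set (Finset U.V)}
    {W' : Set (Finset B.V)} (hW : ∀ ρ ∈ W, ρ ∈ U.K ∧ a ∈ ρ) (hW' : ∀ s ∈ W', s ∈ B.K ∧ d.p a ∈ s)
    (h : ∀ ρ ∈ U.K, a ∈ ρ → (ρ ∈ W ↔ ρ.image d.p ∈ W')) :
    RIso (Finset.image d.p) sub sub W W' := by
  refine ⟨⟨fun ρ hρ => (h ρ (hW ρ hρ).1 (hW ρ hρ).2).1 hρ, fun σ hσ ρ hρ e =>
    d.uniq a ha σ (hW σ hσ).1 ρ (hW ρ hρ).1 (hW σ hσ).2 (hW ρ hρ).2 e, fun s hs => ?_⟩,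
    fun σ hσ ρ hρ => dc_refl d hU ha (hW σ hσ).1 (hW ρ hρ).1 (hW σ hσ).2 (hW ρ hρ).2⟩
  obtain ⟨σ, k1, k2, rfl⟩ := d.lift a ha s (hW' s hs).1 (hW' s hs).2
  exact ⟨σ, (h σ k1 k2).2 hs, rfl⟩

theorem dc_mt (d : DC U B) {σ : Finset U.V} (h : Mt U.A σ) : Mt B.A (σ.image d.p) := by
  obtain ⟨a, ha, hA⟩ := h
  exact ⟨d.p a, Finset.mem_image_of_mem _ ha, d.pE a (d.AE hA)⟩

theorem dc_ok [AddGroup G] (d : DC U B) (hB : B.OK) (cK : Cx U.K) (cF : Cx U.F) (FK : U.F ⊆ U.K)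
    (dF : ∀ σ ∈ U.F, σ.card ≤ 3) : U.OK := by
  have tet : ∀ t ∈ U.K, Mt U.A t → {T | T ∈ U.K ∧ T.card = 4 ∧ t ⊆ T}.ncard
      = {T | T ∈ B.K ∧ T.card = 4 ∧ t.image d.p ⊆ T}.ncard := by
    rintro t ht ⟨a, ha, hA⟩
    refine (dc_iso d cK (d.AE hA) (fun ρ k => ⟨k.1, k.2.2 ha⟩)
      (fun s k => ⟨k.1, k.2.2 (Finset.mem_image_of_mem _ ha)⟩) fun ρ k1 k2 => ?_).ncard
    simp only [Set.mem_ofPred_eq, k1, d.pK ρ k1, dc_card d k1, dc_refl d cK (d.AE hA) ht k1 ha k2]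
  have mE : ∀ σ, Mt U.A σ → Mt d.E σ := fun σ ⟨a, ha, hA⟩ => ⟨a, ha, d.AE hA⟩
  refine ⟨cK, cF, FK, fun σ h => dc_card d h ▸ hB.dimK _ (d.pK σ h), dF, fun t ht hc hm hF => ?_,
    fun t ht hc hm => ?_, fun e he hc hm => ?_, fun x hx y hy z hz s1 s2 => ?_⟩
  · rw [tet t ht hm]
    exact hB.triI _ (d.pK t ht) ((dc_card d ht).trans hc) (dc_mt d hm)
      fun k => hF ((d.bd t ht (mE t hm)).2 k)
  · rw [tet t (FK ht) hm]
    exact hB.triB _ ((d.bd t (FK ht) (mE t hm)).1 ht) ((dc_card d (FK ht)).trans hc) (dc_mt d hm)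
  · rw [← hB.edgB _ ((d.bd e (FK he) (mE e hm)).1 he) ((dc_card d (FK he)).trans hc) (dc_mt d hm)]
    obtain ⟨a, ha, hA⟩ := hm
    refine (dc_iso d cK (d.AE hA) (fun ρ k => ⟨FK k.1, k.2.2 ha⟩)
      (fun s k => ⟨hB.FK k.1, k.2.2 (Finset.mem_image_of_mem _ ha)⟩) fun ρ k1 k2 => ?_).ncard
    simp only [Set.mem_ofPred_eq, d.bd ρ k1 ⟨a, k2, d.AE hA⟩, dc_card d k1,
      dc_refl d cK (d.AE hA) (FK he) k1 ha k2]
  · rw [d.geq x hx.1 z hz.1 (mE x hx.2) (s1.trans s2), d.geq x hx.1 y hy.1 (mE x hx.2) s1,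
      d.geq y hy.1 z hz.1 (mE y hy.2) s2]
    exact hB.coc _ ⟨(d.bd x (FK hx.1) (mE x hx.2)).1 hx.1, dc_mt d hx.2⟩
      _ ⟨(d.bd y (FK hy.1) (mE y hy.2)).1 hy.1, dc_mt d hy.2⟩
      _ ⟨(d.bd z (FK hz.1) (mE z hz.2)).1 hz.1, dc_mt d hz.2⟩
      (Finset.image_subset_image s1) (Finset.image_subset_image s2)

theorem dc_loc (d : DC U B) (hB : B.Loc) (BFK : B.F ⊆ B.K) (cK : Cx U.K) (FK : U.F ⊆ U.K) :
    U.Loc := by
  have ne : ∀ σ ∈ U.K, ∀ ρ ∈ U.K, σ ⊆ ρ → (ρ ≠ σ ↔ ρ.image d.p ≠ σ.image d.p) := by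
    intro σ hσ ρ hρ s
    refine not_congr ⟨fun h => h ▸ rfl, fun h => (eq_of_card s ?_).symm⟩
    rw [← dc_card d hρ, ← dc_card d hσ, h]
  have ne1 : ∀ (a : U.V), ∀ ρ ∈ U.K, a ∈ ρ → (ρ ≠ {a} ↔ ρ.image d.p ≠ {d.p a}) := by
    intro a ρ hρ ha
    rw [← Finset.image_singleton]
    exact ne _ (cK.down ρ hρ _ (Finset.singleton_subset_iff.2 ha) (by simp)) ρ hρ
      (Finset.singleton_subset_iff.2 ha)
  refine ⟨fun σ hσ hm => ?_, fun e he hc hm => ?_, fun a ha => ?_, fun a ha hF => ?_⟩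
  · obtain ⟨T, k1, k2, k3⟩ := hB.pure _ (d.pK σ hσ) (dc_mt d hm)
    obtain ⟨a, ha, hA⟩ := hm
    obtain ⟨T', j1, j2, rfl⟩ := d.lift a (d.AE hA) T k1 (k3 (Finset.mem_image_of_mem _ ha))
    exact ⟨T', j1, dc_card d j1 ▸ k2, (dc_refl d cK (d.AE hA) hσ j1 ha j2).2 k3⟩
  · have hc' := hB.edge _ (d.pK e he) ((dc_card d he).trans hc) (dc_mt d hm)
    obtain ⟨a, ha, hA⟩ := hm
    refine (dc_iso d cK (d.AE hA) (fun ρ k => ⟨k.1, k.2.1 ha⟩)
      (fun s k => ⟨k.1, k.2.1 (Finset.mem_image_of_mem _ ha)⟩) fun ρ k1 k2 => ?_).conn hc'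
    simp only [Set.mem_ofPred_eq, k1, d.pK ρ k1, ← dc_refl d cK (d.AE hA) he k1 ha k2, true_and]
    exact and_congr_right fun s => ne e he ρ k1 s
  · refine (dc_iso d cK (d.AE ha) (fun ρ k => ⟨k.1, k.2.1⟩) (fun s k => ⟨k.1, k.2.1⟩)
      fun ρ k1 k2 => ?_).h0 ⟨∅⟩ (hB.vert _ (d.pE a (d.AE ha)))
    simp only [Set.mem_ofPred_eq, k1, k2, d.pK ρ k1, Finset.mem_image_of_mem _ k2, true_and]
    exact ne1 a ρ k1 k2
  · have h1 := (d.bd _ (FK hF) ⟨a, by simp, d.AE ha⟩).1 hF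
    rw [Finset.image_singleton] at h1
    refine (dc_iso d cK (d.AE ha) (fun ρ k => ⟨FK k.1, k.2.1⟩) (fun s k => ⟨BFK k.1, k.2.1⟩)
      fun ρ k1 k2 => ?_).conn (hB.vertF _ (d.pE a (d.AE ha)) h1)
    simp only [Set.mem_ofPred_eq, k2, d.bd ρ k1 ⟨a, k2, d.AE ha⟩, Finset.mem_image_of_mem _ k2,
      true_and]
    exact and_congr_right fun _ => ne1 a ρ k1 k2

end Cover

section Fold
variable {G : Type} (X : Dat G) (θ : X.V → X.V → ZMod 2)

/-- the sheets are compatible with `θ` -/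
def Sh (σ : Finset (X.V × ZMod 2)) : Prop :=
  (∀ u ∈ σ, u.1 ∉ X.A → u.2 = 0) ∧
    ∀ u ∈ σ, ∀ v ∈ σ, u.1 ∈ X.A → v.1 ∈ X.A → u.2 + v.2 = θ u.1 v.1

/-- the folded double cover -/
abbrev fold (A' : Set (X.V × ZMod 2)) : Dat G where
  V := X.V × ZMod 2
  fin := inferInstance
  dec := inferInstance
  K := {σ | σ.image Prod.fst ∈ X.K ∧ Sh X θ σ}
  F := {σ | σ.image Prod.fst ∈ X.F ∧ Sh X θ σ}
  A := A'
  g := fun σ ρ => X.g (σ.image Prod.fst) (ρ.image Prod.fst)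

variable {X θ}

theorem Sh.mono {σ ρ : Finset (X.V × ZMod 2)} (h : Sh X θ σ) (s : ρ ⊆ σ) : Sh X θ ρ :=
  ⟨fun u hu => h.1 u (s hu), fun u hu v hv => h.2 u (s hu) v (s hv)⟩

theorem fold_cx {S : Set (Finset X.V)} (h : Cx S) :
    Cx {σ : Finset (X.V × ZMod 2) | σ.image Prod.fst ∈ S ∧ Sh X θ σ} :=
  ⟨fun σ k => Finset.image_nonempty.1 (h.ne _ k.1), fun _ k ρ s n =>
    ⟨h.down _ k.1 _ (Finset.image_subset_image s) (Finset.image_nonempty.2 n), k.2.mono s⟩⟩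

/-- `θ` is an edge cocycle inside `A` -/
def EC (X : Dat G) (θ : X.V → X.V → ZMod 2) : Prop :=
  ∀ σ ∈ X.K, ∀ x ∈ σ, ∀ y ∈ σ, ∀ z ∈ σ, x ∈ X.A → y ∈ X.A → z ∈ X.A → θ x z = θ x y + θ y z

theorem fold_inj (hθ : EC X θ) {σ : Finset (X.V × ZMod 2)} (h1 : σ.image Prod.fst ∈ X.K)
    (h2 : Sh X θ σ) : Set.InjOn Prod.fst (σ : Set (X.V × ZMod 2)) := by
  intro u hu v hv e
  refine Prod.ext e ?_
  by_cases hA : u.1 ∈ X.A
  · have m := Finset.mem_image_of_mem Prod.fst (Finset.mem_coe.1 hu)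
    have k := h2.2 u hu v hv hA (e ▸ hA)
    rw [← e, hθ _ h1 _ m _ m _ m hA hA hA, z2] at k
    exact z2e.1 k
  · rw [h2.1 u hu hA, h2.1 v hv (e ▸ hA)]

open Classical in
/-- the folded cover is a double cover, etale over `A` -/
noncomputable def fold_dc (hK : Cx X.K) (hθ : EC X θ) {A' : Set (X.V × ZMod 2)}
    (hA : ∀ u ∈ A', u.1 ∈ X.A) : DC (fold X θ A') X where
  p := Prod.fst
  τ := fun u => if u.1 ∈ X.A then (u.1, u.2 + 1) else u
  E := {u | u.1 ∈ X.A}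
  ττ := fun u => by
    by_cases h : u.1 ∈ X.A
    · simp only [h, if_true, add_assoc, z2, add_zero]
    · simp only [h, if_false]
  pτ := fun u => by by_cases h : u.1 ∈ X.A <;> simp only [h, if_true, if_false]
  τE := fun u hu => by
    have h : u.1 ∈ X.A := hu
    simp only [h, if_true, Set.mem_ofPred_eq]
  AE := hA
  pE := fun _ h => h
  pK := fun _ h => h.1
  τK := fun σ h => by
    refine ⟨?_, ?_, ?_⟩
    · have := h.1
      rw [Finset.image_image]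
      convert this using 2
      funext u
      by_cases k : u.1 ∈ X.A <;> simp only [k, if_true, if_false, Function.comp]
    · intro u hu
      obtain ⟨u, hu', rfl⟩ := Finset.mem_image.1 hu
      by_cases k : u.1 ∈ X.A <;> simp only [k, if_true, if_false]
      · exact fun j => absurd trivial j
      · exact fun _ => h.2.1 u hu' k
    · intro u hu v hv
      obtain ⟨u, hu', rfl⟩ := Finset.mem_image.1 hu
      obtain ⟨v, hv', rfl⟩ := Finset.mem_image.1 hv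
      by_cases k : u.1 ∈ X.A <;> by_cases j : v.1 ∈ X.A <;>
        simp only [k, j, if_true, if_false, IsEmpty.forall_iff, implies_true, forall_const]
      rw [← h.2.2 u hu' v hv' k j]
      generalize u.2 = p, v.2 = q
      revert p q; decide
  inj := fun _ h => fold_inj hθ h.1 h.2
  free := fun u hu e => by
    have h : u.1 ∈ X.A := hu
    simp only [h, if_true] at e
    have := congrArg Prod.snd e
    simp at this
  fib := fun u hu v _ e => by
    have h : u.1 ∈ X.A := hu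
    simp only [h, if_true]
    have : ∀ p q : ZMod 2, p = q ∨ p = q + 1 := by decide
    exact (this v.2 u.2).imp (fun k => Prod.ext e k) fun k => Prod.ext e k
  lift := fun u hu s hs hm => by
    have h : u.1 ∈ X.A := hu
    have e : (s.image fun x => (x, if x ∈ X.A then u.2 + θ u.1 x else 0)).image Prod.fst = s := by
      rw [Finset.image_image]; exact Finset.image_id
    refine ⟨s.image fun x => (x, if x ∈ X.A then u.2 + θ u.1 x else 0), ⟨e.symm ▸ hs, ?_, ?_⟩,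
      Finset.mem_image.2 ⟨u.1, hm, ?_⟩, e⟩
    · intro v hv k
      obtain ⟨x, -, rfl⟩ := Finset.mem_image.1 hv
      exact if_neg k
    · intro v hv w hw k j
      obtain ⟨x, hx, rfl⟩ := Finset.mem_image.1 hv
      obtain ⟨y, hy, rfl⟩ := Finset.mem_image.1 hw
      simp only at k j ⊢
      rw [if_pos k, if_pos j, hθ s hs _ hm x hx y hy h k j]
      generalize u.2 = p, θ u.1 x = q, θ x y = r
      revert p q r; decide
    · rw [if_pos h, hθ s hs _ hm _ hm _ hm h h h, z2, add_zero]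
  uniq := fun u hu σ hσ ρ hρ k1 k2 e => by
    have h : u.1 ∈ X.A := hu
    have key : ∀ σ ρ : Finset (X.V × ZMod 2), Sh X θ σ → Sh X θ ρ → u ∈ σ → u ∈ ρ →
        σ.image Prod.fst = ρ.image Prod.fst → σ ⊆ ρ := by
      intro σ ρ s1 s2 k1 k2 e v hv
      obtain ⟨w, hw, ew⟩ := Finset.mem_image.1 (e ▸ Finset.mem_image_of_mem Prod.fst hv)
      have : w = v := by
        refine Prod.ext ew ?_
        by_cases j : v.1 ∈ X.A
        · have a1 := s1.2 u k1 v hv h j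
          have a2 := s2.2 u k2 w hw h (ew ▸ j)
          rw [ew, ← a1] at a2
          exact add_left_cancel a2
        · rw [s1.1 v hv j, s2.1 w hw (ew ▸ j)]
      exact this ▸ hw
    exact Finset.Subset.antisymm (key σ ρ hσ.2 hρ.2 k1 k2 e) (key ρ σ hρ.2 hσ.2 k2 k1 e.symm)
  bd := fun _ h _ => ⟨fun k => k.1, fun k => ⟨k, h.2⟩⟩
  geq := fun _ _ _ _ _ _ => rfl

end Fold

variable {G : Type} [AddGroup G]

/-- the singular disc lifts -/
def liftDom {X : Dat G} {θ : X.V → X.V → ZMod 2} (D : Dom X) (l : D.ι → ZMod 2)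
    (hl : ∀ s ∈ D.L, ∀ i ∈ s, ∀ j ∈ s, θ (D.f i) (D.f j) = l i + l j) :
    Dom (fold X θ (Set.range fun i => (D.f i, l i))) := by
  letI := D.dec
  have sh : ∀ s ∈ D.L, Sh X θ (s.image fun i => (D.f i, l i)) := fun s hs =>
    ⟨fun u hu k => by
      obtain ⟨i, -, rfl⟩ := Finset.mem_image.1 hu
      exact absurd (D.fA i) k, fun u hu v hv _ _ => by
      obtain ⟨i, hi, rfl⟩ := Finset.mem_image.1 hu
      obtain ⟨j, hj, rfl⟩ := Finset.mem_image.1 hv
      exact (hl s hs i hi j hj).symm⟩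
  have e2 : ∀ i j, ({(D.f i, l i), (D.f j, l j)} : Finset (X.V × ZMod 2)).image Prod.fst
      = {D.f i, D.f j} := fun i j => by simp
  have e1 : ∀ i, ({(D.f i, l i)} : Finset (X.V × ZMod 2)).image Prod.fst = {D.f i} :=
    fun i => by simp
  have f2 : ∀ i j, {i, j} ∈ D.L → (({(D.f i, l i), (D.f j, l j)} : Finset (X.V × ZMod 2)) ∈
      (fold X θ (Set.range fun i => (D.f i, l i))).F ↔ {D.f i, D.f j} ∈ X.F) := fun i j h =>
    ⟨fun k => e2 i j ▸ k.1, fun k => ⟨(e2 i j).symm ▸ k, by simpa using sh _ h⟩⟩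
  have f1 : ∀ i, (({(D.f i, l i)} : Finset (X.V × ZMod 2)) ∈
      (fold X θ (Set.range fun i => (D.f i, l i))).F ↔ {D.f i} ∈ X.F) := fun i =>
    ⟨fun k => e1 i ▸ k.1, fun k => ⟨(e1 i).symm ▸ k, by simpa using sh _ (D.vtx i)⟩⟩
  exact
  { ι := D.ι
    fin := D.fin
    dec := D.dec
    L := D.L
    f := fun i => (D.f i, l i)
    vtx := D.vtx
    simp := fun s hs => ⟨by
      have := D.simp s hs
      rw [Finset.image_image]
      exact this, sh s hs⟩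
    fA := fun i => ⟨i, rfl⟩
    onto := fun _ h => h
    h1 := D.h1
    connI := by
      have h := D.connI
      refine ⟨h.1.imp fun i hi => (f1 i).2 hi, fun κ hκ x hx y hy => ?_⟩
      exact h.2 κ (fun i hi j hj r => hκ i ((f1 i).2 hi) j ((f1 j).2 hj)
        ⟨r.1, (f2 i j r.1).2 r.2⟩) x ((f1 x).1 hx) y ((f1 y).1 hy)
    essI := fun ⟨m, hm⟩ => D.essI ⟨m, fun i j h k => by
      have := hm i j h ((f2 i j h).2 k)
      simpa only [fold, e1, e2] using this⟩ }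

theorem dom_conn {X : Dat G} (hO : X.OK) (D : Dom X) : Conn sub X.Fg := by
  obtain ⟨⟨i0, h0⟩, h⟩ := D.connI
  refine ⟨⟨{D.f i0}, h0, D.f i0, by simp, D.fA i0⟩, fun κ hκ => ?_⟩
  have v : ∀ i, {D.f i} ∈ X.F → {D.f i} ∈ X.Fg := fun i k => ⟨k, D.f i, by simp, D.fA i⟩
  have key := h (fun i => κ {D.f i}) fun i hi j hj r =>
    (hκ _ (v i hi) _ ⟨r.2, D.f i, by simp, D.fA i⟩ (by simp [sub])).trans
      (hκ _ (v j hj) _ ⟨r.2, D.f i, by simp, D.fA i⟩ (by simp [sub])).symm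
  have red : ∀ σ ∈ X.Fg, ∃ i, {D.f i} ∈ X.F ∧ (κ {D.f i} ↔ κ σ) := by
    rintro σ ⟨hσ, a, ha, hA⟩
    obtain ⟨i, rfl⟩ := D.onto a hA
    have k := hO.cxF.down σ hσ _ (Finset.singleton_subset_iff.2 ha) (by simp)
    exact ⟨i, k, hκ _ (v i k) σ ⟨hσ, _, ha, hA⟩ (Finset.singleton_subset_iff.2 ha)⟩
  intro x hx y hy
  obtain ⟨i, hi, e⟩ := red x hx
  obtain ⟨j, hj, e'⟩ := red y hy
  exact e.symm.trans ((key i hi j hj).trans e')

theorem dom_ess {X : Dat G} (hO : X.OK) (D : Dom X) : ¬ Cob sub X.Fg X.g := by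
  rintro ⟨l, hl⟩
  refine D.essI ⟨fun i => l {D.f i}, fun i j _ k => ?_⟩
  have m : {D.f i, D.f j} ∈ X.Fg := ⟨k, D.f i, by simp, D.fA i⟩
  rw [← hl _ ⟨hO.cxF.down _ k _ (by simp) (by simp), D.f i, by simp, D.fA i⟩ _ m (by simp [sub]),
    ← hl _ ⟨hO.cxF.down _ k _ (by simp) (by simp), D.f j, by simp, D.fA j⟩ _ m (by simp [sub])]

/-- the edges inside `A` -/
def Eg (X : Dat G) : Set (Finset X.V) := {e | Sx X 2 e ∧ In X e}

/-- **TOWER** -/
theorem tower : TowerStmt := by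
  classical
  intro h1 h2 h3 h4 G _ X0 hO0 hL0 D0
  have main : ∀ n m : ℕ, ∀ (X : Dat G), X.OK → X.Loc → ∀ D : Dom X,
      Nat.card D.ι - X.A.ncard = n → (Eg X).ncard = m → ∃ n, (X.subN n).HasDisc := by
    intro n
    induction n using Nat.strong_induction_on with
    | _ n ihn =>
    intro m
    induction m using Nat.strong_induction_on with
    | _ m ihm =>
    intro X hO hL D hn hm
    by_cases hH : H1On X.K X.A
    · exact ⟨0, h4 G X hO hL hH (dom_conn hO D) (dom_ess hO D)⟩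
    simp only [H1On, not_forall] at hH
    obtain ⟨θ, hθ, hnt⟩ := hH
    let _ := D.dec
    let _ := D.fin
    obtain ⟨l, hl⟩ := D.h1 (fun i j => θ (D.f i) (D.f j)) fun s hs i hi j hj k hk _ _ _ =>
      hθ _ (D.simp s hs) _ (Finset.mem_image_of_mem _ hi) _ (Finset.mem_image_of_mem _ hj) _
        (Finset.mem_image_of_mem _ hk) (D.fA i) (D.fA j) (D.fA k)
    let A' : Set (X.V × ZMod 2) := Set.range fun i => (D.f i, l i)
    have hA : ∀ u ∈ A', u.1 ∈ X.A := by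
      rintro _ ⟨i, rfl⟩; exact D.fA i
    let d := fold_dc hO.cxK hθ hA
    have FK : (fold X θ A').F ⊆ (fold X θ A').K := fun σ k => ⟨hO.FK k.1, k.2⟩
    have hO' : (fold X θ A').OK := dc_ok d hO (fold_cx hO.cxK) (fold_cx hO.cxF) FK fun σ k =>
      dc_card d (FK k) ▸ hO.dimF _ k.1
    have hL' : (fold X θ A').Loc := dc_loc d hL hO.FK (fold_cx hO.cxK) FK
    let D' : Dom (fold X θ A') := liftDom D l fun s hs i hi j hj => hl s hs i hi j hj trivial trivial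
    suffices h : ∃ n, ((fold X θ A').subN n).HasDisc by
      obtain ⟨k, hk⟩ := h
      exact ⟨k + 2, desc_iter h1 h2 h3 hO' hO d hk⟩
    have im : Prod.fst '' A' = X.A := by
      ext a
      constructor
      · rintro ⟨u, hu, rfl⟩; exact hA u hu
      · intro ha
        obtain ⟨i, rfl⟩ := D.onto a ha
        exact ⟨_, ⟨i, rfl⟩, rfl⟩
    have le1 : A'.ncard ≤ Nat.card D.ι := by
      have := Set.ncard_image_le (f := fun i => (D.f i, l i)) (s := Set.univ)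
      rwa [Set.image_univ, Set.ncard_univ] at this
    have le2 : X.A.ncard ≤ A'.ncard := im ▸ Set.ncard_image_le
    by_cases hlt : X.A.ncard < A'.ncard
    · refine ihn (Nat.card D.ι - A'.ncard) (by omega) _ _ hO' hL' D' rfl rfl
    have eqc : A'.ncard = X.A.ncard := by omega
    have inj : Set.InjOn Prod.fst A' := Set.injOn_of_ncard_image_eq (by rw [im, eqc])
    refine ihm (Eg (fold X θ A')).ncard ?_ _ hO' hL' D' (by rw [← hn, ← eqc]; rfl) rfl
    have sub1 : ∀ e ∈ Eg (fold X θ A'), ∀ e' ∈ Eg (fold X θ A'),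
        Finset.image Prod.fst e = Finset.image Prod.fst e' → e ⊆ e' := by
      intro e he e' he' ee u hu
      obtain ⟨v, hv, k⟩ := Finset.mem_image.1 (ee ▸ Finset.mem_image_of_mem Prod.fst hu)
      exact inj (he'.2 v hv) (he.2 u hu) k ▸ hv
    rw [← hm, ← Set.InjOn.ncard_image (f := Finset.image Prod.fst) (s := Eg (fold X θ A'))
      fun e he e' he' ee => Finset.Subset.antisymm (sub1 e he e' he' ee) (sub1 e' he' e he ee.symm)]
    refine Set.ncard_lt_ncard ⟨?_, fun hh => hnt ?_⟩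
    · rintro _ ⟨e, he, rfl⟩
      refine ⟨⟨he.1.1.1, (dc_card d he.1.1).trans he.1.2⟩, fun x hx => ?_⟩
      obtain ⟨u, hu, rfl⟩ := Finset.mem_image.1 hx
      exact hA u (he.2 u hu)
    · have ex : ∀ a : X.V, ∃ v : ZMod 2, ∀ u ∈ A', u.1 = a → u.2 = v := fun a => by
        by_cases k : ∃ u ∈ A', u.1 = a
        · obtain ⟨u, hu, rfl⟩ := k
          exact ⟨u.2, fun v hv e => by rw [inj hv hu e]⟩
        · exact ⟨0, fun u hu e => absurd ⟨u, hu, e⟩ k⟩
      choose lam hlam using ex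
      refine ⟨lam, fun σ hσ x hx y hy ax ay => ?_⟩
      by_cases hxy : x = y
      · subst hxy
        rw [hθ σ hσ x hx x hx x hx ax ax ax, z2, z2]
      obtain ⟨e, he, ee⟩ := hh (show {x, y} ∈ Eg X from
        ⟨⟨hO.cxK.down σ hσ _ (pair_sub hx hy) (by simp), Finset.card_pair hxy⟩,
          fun u hu => by simp at hu; rcases hu with rfl | rfl <;> assumption⟩)
      obtain ⟨u, hu, rfl⟩ := Finset.mem_image.1 (ee ▸ (by simp : x ∈ ({x, y} : Finset X.V)))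
      obtain ⟨v, hv, rfl⟩ := Finset.mem_image.1 (ee ▸ (by simp : y ∈ ({u.1, y} : Finset X.V)))
      rw [← he.1.1.2.2 u hu v hv ax ay, hlam _ u (he.2 u hu) rfl, hlam _ v (he.2 v hv) rfl]
  exact main _ _ X0 hO0 hL0 D0 rfl rfl

end Crest.Agent.X212.Lt44
end

-- ▼ part X212/Lad50/RealC
section

/-!
# Row 212, layer T, loop theorem road B: the poset of cells of a normal surface is a surface
-/

namespace Crest.Agent.X212.Lad50

open Dsc37

variable {G : Type} [AddGroup G] {X : Dat G} {w : X.V → X.V → ZMod 2}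

lemma w_self (hD : X.Disc w) {σ : Finset X.V} (h : σ ∈ X.K) {x : X.V} (hx : x ∈ σ) : w x x = 0 := by
  have := hD.ec σ h x hx x hx x hx
  simpa using this

omit [AddGroup G] in
lemma mx_mono {σ ρ : Finset X.V} (h : Mx w σ) (hs : σ ⊆ ρ) : Mx w ρ := by
  obtain ⟨x, hx, y, hy, e⟩ := h
  exact ⟨x, hs hx, y, hs hy, e⟩

lemma ex_edge (hD : X.Disc w) {σ : Finset X.V} (h : σ ∈ Sf X.K w) :
    ∃ e, e ⊆ σ ∧ e.card = 2 ∧ Mx w e := by
  obtain ⟨hK, x, hx, y, hy, e⟩ := h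
  have : x ≠ y := fun h => e (h ▸ w_self hD hK hx)
  exact ⟨{x, y}, Finset.insert_subset hx (Finset.singleton_subset_iff.2 hy),
    Finset.card_pair this, x, by simp, y, by simp, e⟩

lemma two_le_card (hD : X.Disc w) {σ : Finset X.V} (h : σ ∈ Sf X.K w) : 2 ≤ σ.card := by
  obtain ⟨e, h1, h2, -⟩ := ex_edge hD h
  exact h2 ▸ Finset.card_le_card h1

lemma sf_mt (hD : X.Disc w) {σ : Finset X.V} (h : σ ∈ Sf X.K w) : Mt X.A σ := by
  obtain ⟨hK, x, hx, y, hy, e⟩ := h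
  rcases hD.supp σ hK x hx y hy e with h | h
  exacts [⟨x, hx, h⟩, ⟨y, hy, h⟩]

lemma sf_sub (hO : X.OK) {σ ρ : Finset X.V} (h : ρ ∈ X.K) (hs : σ ⊆ ρ) (hm : Mx w σ) :
    σ ∈ Sf X.K w := ⟨hO.cxK.down ρ h σ hs (by obtain ⟨x, hx, -⟩ := hm; exact ⟨x, hx⟩), hm⟩

lemma sfF_sub (hO : X.OK) : Sf X.F w ⊆ Sf X.K w := fun _ h => ⟨hO.FK h.1, h.2⟩

lemma ex_min {V : Type*} {Q : Set (Finset V)} {r : Finset (Finset V)} (hr : r ∈ sd Q) :
    ∃ m ∈ r, ∀ σ ∈ r, m ⊆ σ := by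
  obtain ⟨m, hm, h⟩ := r.exists_min_image Finset.card hr.1
  exact ⟨m, hm, fun σ hσ => sub_of_card (hr.2.2 m hm σ hσ) (h σ hσ)⟩

/-- every chain lies in a flag -/
lemma ex_flag (hO : X.OK) (hL : X.Loc) (hD : X.Disc w) {r : Finset (Finset X.V)}
    (hr : r ∈ sd (Sf X.K w)) : ∃ f ∈ sd (Sf X.K w), f.card = 3 ∧ r ⊆ f := by
  obtain ⟨m, hm, hmin⟩ := ex_min hr
  obtain ⟨e, e1, e2, e3⟩ := ex_edge hD (hr.2.1 m hm)
  obtain ⟨T, T1, T2, T3⟩ := hL.pure _ (top_memK hr).1 (sf_mt hD (top_memK hr))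
  have heT : e ⊆ T := e1.trans ((sub_top hm).trans T3)
  obtain ⟨t, t1, t2, t3, t4⟩ : ∃ t : Finset X.V, e ⊆ t ∧ t ⊆ T ∧ t.card = 3 ∧
      ∀ σ ∈ r, σ.card = 3 → σ = t := by
    by_cases h : ∃ σ ∈ r, σ.card = 3
    · obtain ⟨t, ht, hc⟩ := h
      exact ⟨t, e1.trans (hmin t ht), (sub_top ht).trans T3, hc, fun σ hσ h =>
        eq_of_card (hr.2.2 σ hσ t ht) (h.trans hc.symm)⟩
    · obtain ⟨t, t1, t2, t3⟩ := Finset.exists_subsuperset_card_eq (n := 3) heT (by omega) (by omega)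
      exact ⟨t, t1, t2, t3, fun σ hσ hc => absurd ⟨σ, hσ, hc⟩ h⟩
  refine ⟨{e, t, T}, ⟨by simp, ?_, ?_⟩, Finset.card_eq_three.2 ⟨e, t, T, ?_, ?_, ?_, rfl⟩,
    fun σ hσ => ?_⟩
  · simp only [Finset.mem_insert, Finset.mem_singleton]
    rintro σ (rfl | rfl | rfl)
    exacts [sf_sub hO T1 heT e3, sf_sub hO T1 t2 (mx_mono e3 t1), ⟨T1, mx_mono e3 heT⟩]
  · simp only [Finset.mem_insert, Finset.mem_singleton]
    rintro σ (rfl | rfl | rfl) ρ (rfl | rfl | rfl) <;> simp [*]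
  · rintro rfl; omega
  · rintro rfl; omega
  · rintro rfl; omega
  · have h1 := two_le_card hD (hr.2.1 σ hσ)
    have h2 := hO.dimK _ (hr.2.1 σ hσ).1
    simp only [Finset.mem_insert, Finset.mem_singleton]
    rcases (by omega : σ.card = 2 ∨ σ.card = 3 ∨ σ.card = 4) with h | h | h
    · exact Or.inl (Finset.eq_of_subset_of_card_le (e1.trans (hmin σ hσ)) (by omega)).symm
    · exact Or.inr (Or.inl (t4 σ hσ h))
    · exact Or.inr (Or.inr (Finset.eq_of_subset_of_card_le ((sub_top hσ).trans T3) (by omega)))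

/-- every boundary chain lies in a boundary flag -/
lemma ex_flagF (hO : X.OK) (hD : X.Disc w) {r : Finset (Finset X.V)}
    (hr : r ∈ sd (Sf X.F w)) : ∃ f ∈ sd (Sf X.F w), f.card = 2 ∧ r ⊆ f := by
  obtain ⟨m, hm, hmin⟩ := ex_min hr
  obtain ⟨e, e1, e2, e3⟩ := ex_edge hD (sfF_sub hO (hr.2.1 m hm))
  have eF : e ∈ X.F := hO.cxF.down m (hr.2.1 m hm).1 e e1 (Finset.card_pos.1 (by omega))
  obtain ⟨t, t1, t2, t3, t4⟩ : ∃ t : Finset X.V, e ⊆ t ∧ t ∈ X.F ∧ t.card = 3 ∧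
      ∀ σ ∈ r, σ.card = 3 → σ = t := by
    by_cases h : ∃ σ ∈ r, σ.card = 3
    · obtain ⟨t, ht, hc⟩ := h
      exact ⟨t, e1.trans (hmin t ht), (hr.2.1 t ht).1, hc, fun σ hσ h =>
        eq_of_card (hr.2.2 σ hσ t ht) (h.trans hc.symm)⟩
    · obtain ⟨t, t1, t2, t3⟩ := Set.nonempty_of_ncard_ne_zero
        ((hO.edgB e eF e2 (sf_mt hD ⟨hO.FK eF, e3⟩)).trans_ne two_ne_zero)
      exact ⟨t, t3, t1, t2, fun σ hσ hc => absurd ⟨σ, hσ, hc⟩ h⟩
  refine ⟨{e, t}, ⟨by simp, ?_, ?_⟩, Finset.card_pair ?_, fun σ hσ => ?_⟩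
  · simp only [Finset.mem_insert, Finset.mem_singleton]
    rintro σ (rfl | rfl)
    exacts [⟨eF, e3⟩, ⟨t2, mx_mono e3 t1⟩]
  · simp only [Finset.mem_insert, Finset.mem_singleton]
    rintro σ (rfl | rfl) ρ (rfl | rfl) <;> simp [*]
  · rintro rfl; omega
  · have h1 := two_le_card hD (sfF_sub hO (hr.2.1 σ hσ))
    have h2 := hO.dimF _ (hr.2.1 σ hσ).1
    simp only [Finset.mem_insert, Finset.mem_singleton]
    rcases (by omega : σ.card = 2 ∨ σ.card = 3) with h | h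
    · exact Or.inl (Finset.eq_of_subset_of_card_le (e1.trans (hmin σ hσ)) (by omega)).symm
    · exact Or.inr (t4 σ hσ h)

lemma mx_pair (hD : X.Disc w) {σ : Finset X.V} (h : σ ∈ X.K) {x y : X.V} (hx : x ∈ σ)
    (hy : y ∈ σ) : Mx w {x, y} ↔ w x y ≠ 0 := by
  refine ⟨fun ⟨a, ha, b, hb, e⟩ h0 => e ?_, fun e => ⟨x, by simp, y, by simp, e⟩⟩
  have h1 := w_self hD h hx
  have h2 := w_self hD h hy
  have h3 := hD.ec σ h y hy x hx y hy
  simp only [Finset.mem_insert, Finset.mem_singleton] at ha hb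
  rcases ha with rfl | rfl <;> rcases hb with rfl | rfl
  exacts [h1, h0, by rw [h0, h2, add_zero] at h3; exact h3.symm, h2]

/-- a mixed triangle has two marked edges -/
lemma two_marked (hD : X.Disc w) {t : Finset X.V} (h : t ∈ Sf X.K w) (hc : t.card = 3) :
    {e | e ⊆ t ∧ e.card = 2 ∧ Mx w e}.ncard = 2 := by
  obtain ⟨hK, x, hx, y, hy, e⟩ := h
  have hxy : x ≠ y := fun h => e (h ▸ w_self hD hK hx)
  obtain ⟨z, hz, rfl⟩ := Finset.exists_eq_insert_iff.2 ⟨(Finset.insert_subset hx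
    (Finset.singleton_subset_iff.2 hy) : {x, y} ⊆ t), by rw [Finset.card_pair hxy, hc]⟩
  have mz : z ∈ insert z ({x, y} : Finset X.V) := Finset.mem_insert_self _ _
  have hzx : z ≠ x := fun h => hz (by simp [h])
  have hzy : z ≠ y := fun h => hz (by simp [h])
  have h3 := hD.ec _ hK x hx z mz y hy
  have hall : ∀ e' : Finset X.V, e' ⊆ insert z {x, y} → e'.card = 2 →
      e' = {x, y} ∨ e' = {x, z} ∨ e' = {z, y} := fun e' h1 h2 => by
    obtain ⟨a, b, hab, rfl⟩ := Finset.card_eq_two.1 h2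
    have ha := h1 (Finset.mem_insert_self a {b})
    have hb := h1 (Finset.mem_insert_of_mem (Finset.mem_singleton_self b))
    simp only [Finset.mem_insert, Finset.mem_singleton] at ha hb
    rcases ha with rfl | rfl | rfl <;> rcases hb with rfl | rfl | rfl <;>
      simp [Finset.pair_comm] at hab ⊢
  have s1 : ({x, y} : Finset X.V) ⊆ insert z {x, y} := Finset.subset_insert _ _
  have s2 : ({x, z} : Finset X.V) ⊆ insert z {x, y} :=
    Finset.insert_subset hx (Finset.singleton_subset_iff.2 mz)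
  have s3 : ({z, y} : Finset X.V) ⊆ insert z {x, y} :=
    Finset.insert_subset mz (Finset.singleton_subset_iff.2 hy)
  have m1 := (mx_pair hD hK hx hy).2 e
  by_cases h0 : w x z = 0
  · have h4 : w z y ≠ 0 := by rwa [h3, h0, zero_add] at e
    refine Set.ncard_eq_two.2 ⟨{x, y}, {z, y}, fun h => hz (h ▸ Finset.mem_insert_self z {y}), ?_⟩
    ext e'; constructor
    · rintro ⟨a, b, c⟩
      rcases hall e' a b with rfl | rfl | rfl
      exacts [Or.inl rfl, absurd h0 ((mx_pair hD hK hx mz).1 c), Or.inr rfl]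
    · rintro (rfl | rfl)
      exacts [⟨s1, Finset.card_pair hxy, m1⟩,
        ⟨s3, Finset.card_pair hzy, (mx_pair hD hK mz hy).2 h4⟩]
  · have h4 : w z y = 0 := by
      rw [h3] at e; revert e h0; generalize w x z = a; generalize w z y = b; revert a b; decide
    refine Set.ncard_eq_two.2 ⟨{x, y}, {x, z}, fun h => hz (h ▸ by simp), ?_⟩
    ext e'; constructor
    · rintro ⟨a, b, c⟩
      rcases hall e' a b with rfl | rfl | rfl
      exacts [Or.inl rfl, Or.inr rfl, absurd h4 ((mx_pair hD hK mz hy).1 c)]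
    · rintro (rfl | rfl)
      exacts [⟨s1, Finset.card_pair hxy, m1⟩,
        ⟨s2, Finset.card_pair hzx.symm, (mx_pair hD hK hx mz).2 h0⟩]

open Classical in
/-- the number of faces of the surface at an edge -/
lemma count_faces (hO : X.OK) (hD : X.Disc w) {r : Finset (Finset X.V)}
    (hr : r ∈ sd (Sf X.K w)) (hc : r.card = 2) :
    {f | f ∈ sd (Sf X.K w) ∧ f.card = 3 ∧ r ⊆ f}.ncard = if top r ∈ X.F then 1 else 2 := by
  obtain ⟨a, b, hab, hs, rfl⟩ : ∃ a b : Finset X.V, a ≠ b ∧ a ⊆ b ∧ r = {a, b} := by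
    obtain ⟨a, b, hab, rfl⟩ := Finset.card_eq_two.1 hc
    rcases hr.2.2 a (by simp) b (by simp) with h | h
    exacts [⟨a, b, hab, h, rfl⟩, ⟨b, a, hab.symm, h, Finset.pair_comm _ _⟩]
  have ha := hr.2.1 a (by simp)
  have hb := hr.2.1 b (by simp)
  have ht : top {a, b} = b := by simp [top, hs]
  have c1 := two_le_card hD ha
  have c2 := hO.dimK b hb.1
  have c3 := Finset.card_lt_card (Finset.ssubset_iff_subset_ne.2 ⟨hs, hab⟩)
  have e1 := ncard_ext hr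
  rw [hc] at e1
  rw [e1, ht]
  have key : ∀ ρ, (ρ ∈ Sf X.K w ∧ ρ ∉ ({a, b} : Finset (Finset X.V)) ∧
      ∀ σ ∈ ({a, b} : Finset (Finset X.V)), σ ⊆ ρ ∨ ρ ⊆ σ) ↔ ρ ∈ Sf X.K w ∧ ρ.card ≠ a.card ∧
      ρ.card ≠ b.card ∧ (a ⊆ ρ ∨ ρ ⊆ a) ∧ (b ⊆ ρ ∨ ρ ⊆ b) := fun ρ => by
    simp only [Finset.mem_insert, Finset.mem_singleton, not_or, forall_eq_or_imp, forall_eq]
    constructor
    · rintro ⟨h1, ⟨h2, h3⟩, h4, h5⟩
      exact ⟨h1, fun e => h2 (eq_of_card h4.symm e), fun e => h3 (eq_of_card h5.symm e), h4, h5⟩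
    · rintro ⟨h1, h2, h3, h4, h5⟩
      exact ⟨h1, ⟨fun e => h2 (e ▸ rfl), fun e => h3 (e ▸ rfl)⟩, h4, h5⟩
  simp only [key]
  have bd : ∀ ρ ∈ Sf X.K w, 2 ≤ ρ.card ∧ ρ.card ≤ 4 := fun ρ h =>
    ⟨two_le_card hD h, hO.dimK ρ h.1⟩
  rcases (by omega : (a.card = 2 ∧ b.card = 3) ∨ (a.card = 2 ∧ b.card = 4) ∨
    (a.card = 3 ∧ b.card = 4)) with ⟨h1, h2⟩ | ⟨h1, h2⟩ | ⟨h1, h2⟩
  · have : {ρ | ρ ∈ Sf X.K w ∧ ρ.card ≠ a.card ∧ ρ.card ≠ b.card ∧ (a ⊆ ρ ∨ ρ ⊆ a) ∧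
        (b ⊆ ρ ∨ ρ ⊆ b)} = {T | T ∈ X.K ∧ T.card = 4 ∧ b ⊆ T} := by
      ext ρ; constructor
      · rintro ⟨k1, k2, k3, -, k5⟩
        have := bd ρ k1
        exact ⟨k1.1, by omega, sub_of_card k5 (by omega)⟩
      · rintro ⟨k1, k2, k3⟩
        exact ⟨⟨k1, mx_mono hb.2 k3⟩, by omega, by omega, Or.inl (hs.trans k3), Or.inl k3⟩
    rw [this]
    split_ifs with h
    exacts [hO.triB b h h2 (sf_mt hD hb), hO.triI b hb.1 h2 (sf_mt hD hb) h]
  · rw [if_neg fun h => by have := hO.dimF b h; omega, ← ncard_between hs (by omega)]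
    congr 1
    ext ρ; constructor
    · rintro ⟨k1, k2, k3, k4, k5⟩
      have := bd ρ k1
      exact ⟨sub_of_card k4 (by omega), sub_of_card k5.symm (by omega), by omega⟩
    · rintro ⟨k1, k2, k3⟩
      exact ⟨sf_sub hO hb.1 k2 (mx_mono ha.2 k1), by omega, by omega, Or.inl k1, Or.inr k2⟩
  · rw [if_neg fun h => by have := hO.dimF b h; omega, ← two_marked hD ha h1]
    congr 1
    ext ρ; constructor
    · rintro ⟨k1, k2, k3, k4, -⟩
      have := bd ρ k1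
      exact ⟨sub_of_card k4.symm (by omega), by omega, k1.2⟩
    · rintro ⟨k1, k2, k3⟩
      exact ⟨sf_sub hO ha.1 k1 k3, by omega, by omega, Or.inr k1, Or.inr (k1.trans hs)⟩

/-- the link of a cell in the poset of the surface -/
def Lk (X : Dat G) (w : X.V → X.V → ZMod 2) (σ : Finset X.V) : Set (Finset X.V) :=
  {ρ | ρ ∈ Sf X.K w ∧ ρ ≠ σ ∧ (σ ⊆ ρ ∨ ρ ⊆ σ)}

/-- links are connected -/
lemma link_conn (hO : X.OK) (hL : X.Loc) (hD : X.Disc w) {σ : Finset X.V} (hσ : σ ∈ Sf X.K w)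
    (κ : Finset X.V → Prop) (hκ : ∀ ρ ∈ Lk X w σ, ∀ ρ' ∈ Lk X w σ, ρ ⊆ ρ' → (κ ρ ↔ κ ρ')) :
    ∀ ρ ∈ Lk X w σ, ∀ ρ' ∈ Lk X w σ, (κ ρ ↔ κ ρ') := by
  have c1 := two_le_card hD hσ
  have c2 := hO.dimK σ hσ.1
  have hne : ∀ ρ ∈ Lk X w σ, ρ.card ≠ σ.card ∧ 2 ≤ ρ.card ∧ ρ.card ≤ 4 := fun ρ h =>
    ⟨fun e => h.2.1 (eq_of_card h.2.2.symm e), two_le_card hD h.1, hO.dimK ρ h.1.1⟩
  rcases (by omega : σ.card = 2 ∨ σ.card = 3 ∨ σ.card = 4) with h | h | h
  · have e : Lk X w σ = {ρ | ρ ∈ X.K ∧ σ ⊆ ρ ∧ ρ ≠ σ} := by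
      ext ρ; constructor
      · intro k; have := hne ρ k
        exact ⟨k.1.1, sub_of_card k.2.2 (by omega), k.2.1⟩
      · exact fun k => ⟨⟨k.1, mx_mono hσ.2 k.2.1⟩, k.2.2, Or.inl k.2.1⟩
    rw [e] at hκ ⊢
    exact (hL.edge σ hσ.1 h (sf_mt hD hσ)).2 κ hκ
  · obtain ⟨e, e1, e2, e3⟩ := ex_edge hD hσ
    obtain ⟨T, T1, T2, T3⟩ := hL.pure σ hσ.1 (sf_mt hD hσ)
    have he : e ∈ Lk X w σ := ⟨sf_sub hO hσ.1 e1 e3, by rintro rfl; omega, Or.inr e1⟩
    have hT : T ∈ Lk X w σ := ⟨⟨T1, mx_mono hσ.2 T3⟩, by rintro rfl; omega, Or.inl T3⟩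
    have key : ∀ ρ ∈ Lk X w σ, (κ ρ ↔ κ T) := fun ρ k => by
      rcases k.2.2 with h' | h'
      · exact (hκ e he ρ k (e1.trans h')).symm.trans (hκ e he T hT (e1.trans T3))
      · exact hκ ρ k T hT (h'.trans T3)
    exact fun ρ k ρ' k' => (key ρ k).trans (key ρ' k').symm
  · have hp : ∀ {x y}, x ∈ σ → y ∈ σ → ({x, y} : Finset X.V) ⊆ σ := fun hx hy =>
      Finset.insert_subset hx (Finset.singleton_subset_iff.2 hy)
    have hlk : ∀ ρ, ρ ⊆ σ → ρ.card ≤ 3 → Mx w ρ → ρ ∈ Lk X w σ := fun ρ k1 k2 k3 =>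
      ⟨sf_sub hO hσ.1 k1 k3, by rintro rfl; omega, Or.inr k1⟩
    have adj : ∀ e e' : Finset X.V, e ⊆ σ → e' ⊆ σ → (e ∪ e').card ≤ 3 → Mx w e → Mx w e' →
        (κ e ↔ κ e') := fun e e' k1 k2 k3 k4 k5 => by
      have hu := hlk _ (Finset.union_subset k1 k2) k3 (mx_mono k4 Finset.subset_union_left)
      exact (hκ e (hlk e k1 ((Finset.card_le_card Finset.subset_union_left).trans k3) k4) _ hu
        Finset.subset_union_left).trans (hκ e' (hlk e' k2
        ((Finset.card_le_card Finset.subset_union_right).trans k3) k5) _ hu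
        Finset.subset_union_right).symm
    have c3 : ∀ x y z : X.V, ∀ u : Finset X.V, u ⊆ {x, y, z} → u.card ≤ 3 := fun x y z u hu =>
      (Finset.card_le_card hu).trans Finset.card_le_three
    have edges : ∀ x ∈ σ, ∀ y ∈ σ, ∀ x' ∈ σ, ∀ y' ∈ σ, w x y ≠ 0 → w x' y' ≠ 0 →
        (κ {x, y} ↔ κ {x', y'}) := fun x hx y hy x' hx' y' hy' k k' => by
      have m := (mx_pair hD hσ.1 hx hy).2 k
      have m' := (mx_pair hD hσ.1 hx' hy').2 k'
      by_cases h0 : w x x' = 0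
      · have h1 : w x' y ≠ 0 := by rwa [hD.ec σ hσ.1 x hx x' hx' y hy, h0, zero_add] at k
        have m1 := (mx_pair hD hσ.1 hx' hy).2 h1
        exact (adj _ _ (hp hx hy) (hp hx' hy) (c3 x x' y _ (by simp [Finset.subset_iff])) m m1).trans
          (adj _ _ (hp hx' hy) (hp hx' hy') (c3 x' y y' _ (by simp [Finset.subset_iff])) m1 m')
      · have m1 := (mx_pair hD hσ.1 hx hx').2 h0
        exact (adj _ _ (hp hx hy) (hp hx hx') (c3 x y x' _ (by simp [Finset.subset_iff])) m m1).trans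
          (adj _ _ (hp hx hx') (hp hx' hy') (c3 x x' y' _ (by simp [Finset.subset_iff])) m1 m')
    have key : ∀ ρ ∈ Lk X w σ, ∃ x ∈ σ, ∃ y ∈ σ, w x y ≠ 0 ∧ (κ {x, y} ↔ κ ρ) := fun ρ k => by
      have := hne ρ k
      have hs : ρ ⊆ σ := sub_of_card k.2.2.symm (by omega)
      obtain ⟨x, hx, y, hy, e⟩ := k.1.2
      exact ⟨x, hs hx, y, hs hy, e, hκ _ (hlk _ (hp (hs hx) (hs hy))
        (Finset.card_le_two.trans (by norm_num)) ((mx_pair hD hσ.1 (hs hx) (hs hy)).2 e)) ρ k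
        (Finset.insert_subset hx (Finset.singleton_subset_iff.2 hy))⟩
    intro ρ k ρ' k'
    obtain ⟨x, hx, y, hy, e, a⟩ := key ρ k
    obtain ⟨x', hx', y', hy', e', a'⟩ := key ρ' k'
    exact a.symm.trans ((edges x hx y hy x' hx' y' hy' e e').trans a')

end Crest.Agent.X212.Lad50
end

-- ▼ part X212/Lad50/Real
section

/-!
# Row 212, layer T, loop theorem road B: realisation of a normal disc (`Geo46.RealStmt`)
-/

open Set Filter Topology Metric

namespace Crest.Agent.X212.Lad50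

open Crest.Agent.R096.Ce_537 Dsc37 Geo46
open Crest.Agent.X212.Tw9 (Tri)
open Crest.Agent.X212.Lev33 (Prim)

section
variable {E : Type} [NormedAddCommGroup E] [NormedSpace ℝ E] {ι : Type} [Fintype ι] {Y : Set E}
  {T : Tri ι Y}

lemma mem_supp {y : E} {u : ι} : u ∈ supp T y ↔ 0 < T.be u y := by simp [supp]

lemma be_eq_zero {y : E} (hy : y ∈ Y) {u : ι} : T.be u y = 0 ↔ u ∉ supp T y := by
  rw [mem_supp, not_lt]
  exact ⟨fun h => h.le, fun h => le_antisymm h (T.nn y hy u)⟩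

lemma supp_nonempty {y : E} (hy : y ∈ Y) : (supp T y).Nonempty := by
  by_contra h
  have h1 := T.sum y hy
  rw [Finset.sum_eq_zero fun u _ => (be_eq_zero hy).2 fun hu => h ⟨u, hu⟩] at h1
  exact zero_ne_one h1

lemma supp_mem_simp {y : E} (hy : y ∈ Y) : supp T y ∈ simp T :=
  ⟨supp_nonempty hy, y, hy, subset_rfl⟩

lemma supp_pt {y : E} (hy : y ∈ Y) {u : ι} (hu : u ∈ supp T y) :
    T.pt u ∈ Y ∧ supp T (T.pt u) = {u} := by
  classical
  obtain ⟨h1, h2⟩ := T.face y hy (Pi.single u 1) (fun v => by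
    by_cases h : v = u <;> simp [h]) (by simp) fun v hv => by
    have : v ≠ u := fun e => (be_eq_zero hy).1 hv (e ▸ hu)
    simp [this]
  have e : ∑ v, (Pi.single u 1 : ι → ℝ) v • T.pt v = T.pt u := by
    rw [Finset.sum_eq_single u] <;> simp +contextual
  rw [e] at h1 h2
  refine ⟨h1, Finset.ext fun v => ?_⟩
  rw [mem_supp, h2, Finset.mem_singleton]
  by_cases h : v = u <;> simp [h]

lemma convex_cell {s : Finset ι} (hs : s ∈ simp T) : Convex ℝ (cell T s) := by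
  obtain ⟨-, y, hy, hsy⟩ := hs
  intro x hx z hz a b ha hb hab
  have h0 : ∀ u, u ∉ s → a * T.be u x + b * T.be u z = 0 := fun u hu => by
    rw [(be_eq_zero hx.1).2 fun h => hu (hx.2 u h), (be_eq_zero hz.1).2 fun h => hu (hz.2 u h)]
    ring
  obtain ⟨h1, h2⟩ := T.face y hy (fun u => a * T.be u x + b * T.be u z)
    (fun u => add_nonneg (mul_nonneg ha (T.nn x hx.1 u)) (mul_nonneg hb (T.nn z hz.1 u)))
    (by rw [Finset.sum_add_distrib, ← Finset.mul_sum, ← Finset.mul_sum, T.sum x hx.1,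
      T.sum z hz.1]; linarith)
    fun u hu => h0 u fun h => (be_eq_zero hy).1 hu (hsy h)
  have e : ∑ u, (a * T.be u x + b * T.be u z) • T.pt u = a • x + b • z := by
    simp only [add_smul, mul_smul, Finset.sum_add_distrib, ← Finset.smul_sum, T.rep x hx.1,
      T.rep z hz.1]
  rw [e] at h1 h2
  refine ⟨h1, fun u hu => ?_⟩
  by_contra hn
  rw [mem_supp, h2, h0 u hn] at hu
  exact lt_irrefl _ hu

lemma mem_iff_supp {A : Set E} (hA : T.Sub A) {y : E} (hy : y ∈ Y) :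
    y ∈ A ↔ supp T y ∈ simpIn T A :=
  ⟨fun h => ⟨supp_mem_simp hy, fun z hz => hA y hy z hz.1 h fun u hu =>
    (be_eq_zero hz.1).2 fun h' => (be_eq_zero hy).1 hu (hz.2 u h')⟩,
    fun h => h.2 ⟨hy, fun _ hu => hu⟩⟩

end

/-- **Realisation of a normal disc.** -/
theorem real_of (hSd : SdStmt) (hLoc : LocStmt) (hCx : CxStmt) (hH1 : H1Stmt)
    (hDisc : DiscStmt) : RealStmt := by
  intro Γ _ M dM c X hM g ⟨w, hD⟩
  obtain ⟨hO, hL⟩ := hLoc Γ M dM c X hM g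
  obtain ⟨T', t1, t2, t3⟩ := hSd _ X.V g.Y g.T
  rw [← g.hK] at t1 t3
  set S := Sf X.K w with hS
  have hsub : sd S ⊆ sd X.K := fun r hr => ⟨hr.1, fun σ hσ => (hr.2.1 σ hσ).1, hr.2.2⟩
  have hsd : ∀ y ∈ g.Y, supp T' y ∈ sd X.K := fun y hy => t1 ▸ supp_mem_simp hy
  have htop : ∀ y ∈ g.Y, top (supp T' y) = supp g.T y := fun y hy =>
    Finset.Subset.antisymm ((t2 y hy).2 _ (top_mem (hsd y hy))) (sub_top (t2 y hy).1)
  have hdM : ∀ y ∈ g.Y, y ∈ dM ↔ top (supp T' y) ∈ X.F := fun y hy => by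
    rw [htop y hy, g.hF]; exact mem_iff_supp g.sub hy
  set D := cell T' S with hDdef
  have hDe : {y | y ∈ g.Y ∧ supp T' y ∈ sd S} = D := by
    ext y
    exact and_congr_right fun hy => ⟨fun h => h.2.1, fun h => ⟨(hsd y hy).1, h, (hsd y hy).2.2⟩⟩
  have hcx := hCx _ (Finset X.V) g.Y T' (sd S) (t1 ▸ hsub) fun s hs t ht hn =>
    (cx_sd S).down s hs t ht hn
  rw [hDe] at hcx
  have hdim : ∀ r ∈ sd S, r.card ≤ 3 := fun r hr => by
    obtain ⟨f, -, f2, f3⟩ := ex_flag hO hL hD hr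
    exact f2 ▸ Finset.card_le_card f3
  have hpos : ∀ r : sd S, 1 ≤ r.1.card := fun r => r.2.1.card_pos
  have hlt : ∀ e f : sd S, e.1.card = 2 → (e < f ↔ f.1.card = 3 ∧ e.1 ⊆ f.1) := fun e f he => by
    constructor
    · intro h
      have h1 : e.1 ⊂ f.1 := h
      have := Finset.card_lt_card h1
      have := hdim f.1 f.2
      exact ⟨by omega, h1.1⟩
    · rintro ⟨h1, h2⟩
      exact (Finset.ssubset_iff_subset_ne.2 ⟨h2, fun e' => by rw [e'] at he; omega⟩ : e.1 ⊂ f.1)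
  have hpt : ∀ σ ∈ X.K, T'.pt σ ∈ g.Y ∧ supp T' (T'.pt σ) = {σ} := fun σ hσ =>
    supp_pt (t3 σ hσ).1 (by have := (t2 _ (t3 σ hσ).1).1; rwa [(t3 σ hσ).2] at this)
  have hcell : ∀ r ∈ sd (Sf X.F w), ∀ y ∈ cell T' r, y ∈ D ∩ dM := fun r hr y hy =>
    ⟨⟨hy.1, fun σ hσ => sfF_sub hO (hr.2.1 σ (hy.2 σ hσ))⟩, (hdM y hy.1).2
      (hr.2.1 _ (hy.2 _ (top_mem (hsd y hy.1)))).1⟩
  have hSC : Srf12.SC D (D ∩ dM) (sd S) (fun s => s.1.card - 1) (fun s => cell T' s.1) := by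
    refine ⟨hcx, fun r => by have := hdim r.1 r.2; omega, fun r => ?_,
      fun e f₁ f₂ f₃ he h1 h2 h3 => ?_, fun x => ⟨fun hx => ?_, ?_⟩,
      fun v κ hv hκ f f' hf hf' h1 h2 => ?_⟩
    · obtain ⟨f, f1, f2, f3⟩ := ex_flag hO hL hD r.2
      exact ⟨⟨f, f1⟩, by simp [f2], f3⟩
    · have he' : e.1.card = 2 := by have := hpos e; omega
      have h4 := count_faces hO hD e.2 he'
      by_contra hn
      push Not at hn
      have h5 : ({f₁.1, f₂.1, f₃.1} : Set _) ⊆ {f | f ∈ sd (Sf X.K w) ∧ f.card = 3 ∧ e.1 ⊆ f} := by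
        rintro _ (rfl | rfl | rfl)
        exacts [⟨f₁.2, (hlt _ _ he').1 h1⟩, ⟨f₂.2, (hlt _ _ he').1 h2⟩, ⟨f₃.2, (hlt _ _ he').1 h3⟩]
      have h6 := ncard_le_ncard h5 (toFinite _)
      rw [ncard_eq_three.2 ⟨_, _, _, fun h => hn.1 (Subtype.ext h), fun h => hn.2.1 (Subtype.ext h),
        fun h => hn.2.2 (Subtype.ext h), rfl⟩, h4] at h6
      split_ifs at h6 <;> omega
    · have h1 := (hdM x hx.1.1).1 hx.2
      have h2 : supp T' x ∈ sd (Sf X.F w) := ⟨(hsd x hx.1.1).1, fun σ hσ =>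
        ⟨hO.cxF.down _ h1 σ (sub_top hσ) (hO.cxK.ne σ (hx.1.2 σ hσ).1), (hx.1.2 σ hσ).2⟩,
        (hsd x hx.1.1).2.2⟩
      obtain ⟨e, e1, e2, e3⟩ := ex_flagF hO hD h2
      have e4 : e ∈ sd S := ⟨e1.1, fun σ hσ => sfF_sub hO (e1.2.1 σ hσ), e1.2.2⟩
      have h4 := count_faces hO hD e4 e2
      rw [if_pos (top_memK e1).1] at h4
      obtain ⟨f, hf⟩ := ncard_eq_one.1 h4
      have h5 := hf.superset rfl
      exact ⟨⟨e, e4⟩, ⟨f, h5.1⟩, by simp [e2], ⟨hx.1.1, fun σ hσ => e3 hσ⟩, (hlt _ _ e2).2 h5.2,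
        fun f' h => Subtype.ext (hf.subset ⟨f'.2, (hlt _ _ e2).1 h⟩)⟩
    · rintro ⟨e, f, he, hx, h1, h2⟩
      have he' : e.1.card = 2 := by have := hpos e; omega
      have h4 := count_faces hO hD e.2 he'
      have h5 : {f | f ∈ sd (Sf X.K w) ∧ f.card = 3 ∧ e.1 ⊆ f} = {f.1} := by
        ext f'; constructor
        · intro h; exact congrArg Subtype.val (h2 ⟨f', h.1⟩ ((hlt _ _ he').2 h.2))
        · rintro rfl; exact ⟨f.2, (hlt _ _ he').1 h1⟩
      rw [h5, ncard_singleton] at h4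
      have h6 : top e.1 ∈ X.F := by
        by_contra hn; rw [if_neg hn] at h4; omega
      exact hcell e.1 ⟨e.2.1, fun σ hσ => ⟨hO.cxF.down _ h6 σ (sub_top hσ)
        (hO.cxK.ne σ (e.2.2.1 σ hσ).1), (e.2.2.1 σ hσ).2⟩, e.2.2.2⟩ x hx
    · obtain ⟨σ, hσ⟩ := Finset.card_eq_one.1 (show v.1.card = 1 by have := hpos v; omega)
      have hσS : σ ∈ S := v.2.2.1 σ (by rw [hσ]; simp)
      have k1 : ∀ ρ ∈ Lk X w σ, ∀ f : sd S, f.1.card = 3 → σ ∈ f.1 → ρ ∈ f.1 →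
          ((∃ f' : sd S, f'.1.card = 3 ∧ σ ∈ f'.1 ∧ ρ ∈ f'.1 ∧ κ f') ↔ κ f) := by
        intro ρ hρ f a1 a2 a3
        refine ⟨fun ⟨f', b1, b2, b3, b4⟩ => ?_, fun h => ⟨f, a1, a2, a3, h⟩⟩
        have p1 : ∀ f : sd S, σ ∈ f.1 → ρ ∈ f.1 → ({σ, ρ} : Finset _) ⊆ f.1 := fun f a b =>
          Finset.insert_subset a (Finset.singleton_subset_iff.2 b)
        have p2 : ({σ, ρ} : Finset _).card = 2 := Finset.card_pair hρ.2.1.symm
        set e : sd S := ⟨{σ, ρ}, (cx_sd S).down _ f.2 _ (p1 f a2 a3) (by simp)⟩ with he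
        refine (hκ e f' f ?_ ((hlt e _ p2).2 ⟨b1, p1 f' b2 b3⟩)
          ((hlt e _ p2).2 ⟨a1, p1 f a2 a3⟩)).1 b4
        exact (Finset.ssubset_iff_subset_ne.2 ⟨by rw [hσ]; simp [he], fun h => by
          rw [← show v.1 = {σ, ρ} from h, hσ] at p2; simp at p2⟩ : v.1 ⊂ e.1)
      have k2 := link_conn hO hL hD hσS
        (fun ρ => ∃ f' : sd S, f'.1.card = 3 ∧ σ ∈ f'.1 ∧ ρ ∈ f'.1 ∧ κ f') fun ρ hρ ρ' hρ' h => by
          obtain ⟨f, f1, f2, f3⟩ := ex_flag hO hL hD (r := {σ, ρ, ρ'}) ⟨by simp, by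
            simp only [Finset.mem_insert, Finset.mem_singleton]
            rintro _ (rfl | rfl | rfl)
            exacts [hσS, hρ.1, hρ'.1], by
            simp only [Finset.mem_insert, Finset.mem_singleton]
            rintro _ (rfl | rfl | rfl) _ (rfl | rfl | rfl)
            exacts [Or.inl subset_rfl, hρ.2.2, hρ'.2.2, hρ.2.2.symm, Or.inl subset_rfl, Or.inl h,
              hρ'.2.2.symm, Or.inr h, Or.inl subset_rfl]⟩
          exact (k1 ρ hρ ⟨f, f1⟩ f2 (f3 (by simp)) (f3 (by simp))).trans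
            (k1 ρ' hρ' ⟨f, f1⟩ f2 (f3 (by simp)) (f3 (by simp))).symm
      have k3 : ∀ f : sd S, v < f → σ ∈ f.1 ∧ ∃ ρ ∈ Lk X w σ, ρ ∈ f.1 := fun f h => by
        have h1 : v.1 ⊂ f.1 := h
        obtain ⟨ρ, a, b⟩ := Finset.exists_of_ssubset h1
        have h2 : σ ∈ f.1 := h1.1 (by rw [hσ]; simp)
        exact ⟨h2, ρ, ⟨f.2.2.1 ρ a, fun e => b (by rw [hσ, e]; simp), f.2.2.2 σ h2 ρ a⟩, a⟩
      obtain ⟨a1, ρ, a2, a3⟩ := k3 f h1
      obtain ⟨b1, ρ', b2, b3⟩ := k3 f' h2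
      exact (k1 ρ a2 f (by have := hpos f; omega) a1 a3).symm.trans
        ((k2 ρ a2 ρ' b2).trans (k1 ρ' b2 f' (by have := hpos f'; omega) b1 b3))
  obtain ⟨hh1, hh2⟩ := hH1 _ (Finset X.V) g.Y T' S
  have hpair : ∀ u ∈ X.K, ∀ v ∈ X.K, u ⊆ v → ({u, v} : Finset _) ∈ sd X.K := fun u hu v hv h =>
    ⟨by simp, by simp [hu, hv], by simp [h]⟩
  have hconn : IsConnected D := by
    refine hh2 ?_
    have e : {u | u ∈ S ∧ {u} ∈ simp T'} = S := by
      ext u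
      exact and_iff_left_of_imp fun h => t1 ▸ ⟨by simp, by simpa using h.1, by simp⟩
    rw [e]
    refine ⟨hD.conn.1, fun κ hκ => hD.conn.2 κ fun x hx y hy h => hκ x hx y hy ?_⟩
    rw [t1]; convert hpair x hx.1 y hy.1 h
  have hH : H1On (simp T') S := by
    rw [t1]
    intro θ hθ
    obtain ⟨l, hl⟩ := hD.h0 θ fun x hx y hy z hz h1 h2 => hθ {x, y, z}
      ⟨by simp, by simp [hx.1, hy.1, hz.1], by simp [h1, h2, h1.trans h2]⟩ x (by simp) y (by simp)
      z (by simp) hx hy hz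
    refine ⟨l, fun r hr x hx y hy xS yS => ?_⟩
    have z2 : ∀ a b c : ZMod 2, b = a + c → c = a + b := by decide
    rcases hr.2.2 x hx y hy with h | h
    · exact z2 _ _ _ (hl x xS y yS h)
    · have h1 := hθ r hr x hx y hy x hx xS yS xS
      have h2 := hθ r hr x hx x hx x hx xS xS xS
      have h3 := hl y yS x xS h
      revert h1 h2 h3
      generalize θ x x = a; generalize θ x y = b; generalize θ y x = c
      generalize l x = d; generalize l y = e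
      revert a b c d e; decide
  have hptF : ∀ σ ∈ Sf X.F w, ∀ r : Finset (Finset X.V), σ ∈ r → T'.pt σ ∈ cell T' r :=
    fun σ hσ r h => ⟨(hpt σ (hO.FK hσ.1)).1, fun u hu => by
      rw [(hpt σ (hO.FK hσ.1)).2, Finset.mem_singleton] at hu; exact hu ▸ h⟩
  obtain ⟨σ₀, hσ₀⟩ := hD.connB.1
  refine ⟨D, hDisc D _ _ _ _ hSC hconn (hh1 hH).2 ⟨_, hcell {σ₀} ⟨by simp, by simpa using hσ₀,
    by simp⟩ _ (hptF σ₀ hσ₀ _ (by simp))⟩, fun y hy => g.YM hy.1, inter_subset_right,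
    fun ⟨β, hβ⟩ => hD.ess ?_⟩
  refine ⟨fun σ => Additive.ofMul (β (T'.pt σ) * (g.b σ (T'.pt σ))⁻¹), fun σ hσ ρ hρ h => ?_⟩
  have r1 : ({σ, ρ} : Finset _) ∈ sd (Sf X.F w) := ⟨by simp, by simp [hσ, hρ], by simp [h]⟩
  have r2 := hpair σ (hO.FK hσ.1) ρ (hO.FK hρ.1) h
  have r3 : cell T' ({σ, ρ} : Finset _) ⊆ ost g.T σ ∩ dM := fun y hy => ⟨⟨hy.1, by
    have := hy.2 _ (t2 y hy.1).1
    simp only [Finset.coe_insert, Finset.coe_singleton, mem_insert_iff, mem_singleton_iff] at this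
    rcases this with e | e <;> rw [e]
    exact h⟩, (hcell _ r1 y hy).2⟩
  have mt := sf_mt hD (sfF_sub hO hσ)
  have p1 := hptF σ hσ {σ, ρ} (by simp)
  have p2 := hptF ρ hρ {σ, ρ} (by simp)
  have e1 := ((g.prim σ hσ.1 mt).mono r3).uniq (hβ.mono (hcell _ r1))
    (convex_cell (t1 ▸ r2)).isPreconnected p1 p2
  have e2 := g.geq σ hσ.1 mt ρ hρ.1 h (T'.pt ρ)
    ⟨⟨p2.1, (t3 ρ (hO.FK hρ.1)).2.ge⟩, (r3 p2).2⟩
  apply Additive.toMul.injective
  simp only [toMul_add, toMul_ofMul, e2, e1]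
  group

end Crest.Agent.X212.Lad50
end

-- ▼ part X212/Loc49/Bas
section

/-!
Row 212, layer T, package G-LOC (helper49), part 1: supports, local parametrisations, dimension,
purity and two-sidedness of a geometric complex which is locally a manifold.
-/

set_option autoImplicit false
set_option linter.style.longLine false
set_option linter.unusedSectionVars false

open Set Metric Filter Topology Module

namespace Crest.Agent.X212.Loc49

open Crest.Agent.R096.Ce_537 Crest.Agent.X212.Tw9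

theorem no_inj' {A B : Type*} [NormedAddCommGroup A] [NormedSpace ℝ A] [FiniteDimensional ℝ A]
    [NormedAddCommGroup B] [NormedSpace ℝ B] [FiniteDimensional ℝ B] (h : finrank ℝ B < finrank ℝ A)
    {U : Set A} (hU : IsOpen U) (hne : U.Nonempty) {g : A → B} (hg : ContinuousOn g U)
    (hi : InjOn g U) : False := by
  let a : A ≃L[ℝ] (Fin (finrank ℝ A) → ℝ) := ContinuousLinearEquiv.ofFinrankEq (by simp)
  let b : B ≃L[ℝ] (Fin (finrank ℝ B) → ℝ) := ContinuousLinearEquiv.ofFinrankEq (by simp)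
  obtain ⟨x, hx⟩ := hne
  exact Srf12.no_inj h (hU.preimage a.symm.continuous) ⟨a x, by simpa using hx⟩
    (g := fun y => b (g (a.symm y)))
    (b.continuous.comp_continuousOn (hg.comp a.symm.continuous.continuousOn fun y hy => hy))
    fun y hy y' hy' e => a.symm.injective (hi hy hy' (b.injective e))

variable {E : Type} [NormedAddCommGroup E] [NormedSpace ℝ E] {ι : Type} [Fintype ι] [DecidableEq ι]
  {X : Set E} (T : Tri ι X)

/-- the carrier of a point -/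
noncomputable def sp (y : E) : Finset ι := Finset.univ.filter fun u => 0 < T.be u y

/-- the simplices of a subcomplex -/
def KK (Y : Set E) : Set (Finset ι) := {σ | ∃ y ∈ Y, sp T y = σ}

variable {T}

theorem mem_sp {y : E} {u : ι} : u ∈ sp T y ↔ 0 < T.be u y := by simp [sp]

theorem not_mem_sp {y : E} (hy : y ∈ X) {u : ι} : u ∉ sp T y ↔ T.be u y = 0 := by
  rw [mem_sp, not_lt]
  exact ⟨fun h => le_antisymm h (T.nn y hy u), fun h => h.le⟩

theorem sp_sub_iff {y z : E} (hy : y ∈ X) (hz : z ∈ X) :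
    sp T y ⊆ sp T z ↔ ∀ u, T.be u z = 0 → T.be u y = 0 :=
  ⟨fun h u hu => (not_mem_sp hy).1 fun h' => (not_mem_sp hz).2 hu (h h'),
    fun h u hu => by
      by_contra hn
      exact (not_mem_sp hy).2 (h u ((not_mem_sp hz).1 hn)) hu⟩

theorem sp_nonempty {y : E} (hy : y ∈ X) : (sp T y).Nonempty := by
  by_contra hn
  have h := T.sum y hy
  rw [Finset.sum_eq_zero fun u _ => (not_mem_sp hy).1 fun h' => hn ⟨u, h'⟩] at h
  exact zero_ne_one h

theorem ev_sub {y : E} (hy : y ∈ X) : ∀ᶠ z in 𝓝[X] y, sp T y ⊆ sp T z := by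
  have : ∀ᶠ z in 𝓝[X] y, ∀ u ∈ sp T y, 0 < T.be u z :=
    (Finset.eventually_all _).2 fun u hu => (T.cont u y hy).eventually (lt_mem_nhds (mem_sp.1 hu))
  exact this.mono fun z hz u hu => mem_sp.2 (hz u hu)

theorem coord_inj {y y' : E} (hy : y ∈ X) (hy' : y' ∈ X) (u0 : ι)
    (h : ∀ u, u ≠ u0 → T.be u y = T.be u y') : y = y' := by
  have h0 : T.be u0 y = T.be u0 y' := by
    have h1 := T.sum y hy
    have h2 := T.sum y' hy'
    rw [← Finset.add_sum_erase _ _ (Finset.mem_univ u0)] at h1 h2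
    rw [Finset.sum_congr rfl fun u hu => h u (Finset.ne_of_mem_erase hu)] at h1
    linarith
  rw [← T.rep y hy, ← T.rep y' hy']
  exact Finset.sum_congr rfl fun u _ => by
    by_cases hu : u = u0
    · rw [hu, h0]
    · rw [h u hu]

/-- a subcomplex -/
structure SubC (T : Tri ι X) (Y : Set E) : Prop where
  sub : Y ⊆ X
  cl : ∀ y ∈ Y, ∀ y' ∈ X, sp T y' ⊆ sp T y → y' ∈ Y

theorem subC_self : SubC T X := ⟨Subset.rfl, fun _ _ _ h _ => h⟩

theorem subC_inter {A : Set E} (h : T.Sub A) : SubC T (X ∩ A) :=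
  ⟨inter_subset_left, fun y hy y' hy' hs => ⟨hy', h y hy.1 y' hy' hy.2 ((sp_sub_iff hy' hy.1).1 hs)⟩⟩

variable {Y : Set E}

theorem seg (hY : SubC T Y) {x y : E} (hx : x ∈ X) (hy : y ∈ Y) (h : sp T x ⊆ sp T y) {s : ℝ}
    (h0 : 0 < s) (h1 : s ≤ 1) : x + s • (y - x) ∈ Y ∧ sp T (x + s • (y - x)) = sp T y := by
  have hyX := hY.sub hy
  have e : ∀ u, T.be u x + s * (T.be u y - T.be u x) = (1 - s) * T.be u x + s * T.be u y :=
    fun u => by ring
  obtain ⟨h2, h3⟩ := T.line hx hyX ((sp_sub_iff hx hyX).1 h) (s := s) fun u => by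
    rw [e]; exact add_nonneg (mul_nonneg (by linarith) (T.nn x hx u)) (mul_nonneg h0.le (T.nn y hyX u))
  have h4 : sp T (x + s • (y - x)) = sp T y := by
    ext u
    rw [mem_sp, h3, e]
    constructor
    · intro h5
      by_contra hn
      rw [(not_mem_sp hyX).1 hn, (not_mem_sp hx).1 fun h' => hn (h h')] at h5
      simp at h5
    · intro h5
      exact add_pos_of_nonneg_of_pos (mul_nonneg (by linarith) (T.nn x hx u)) (mul_pos h0 (mem_sp.1 h5))
  exact ⟨hY.cl y hy _ h2 h4.le, h4⟩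

theorem near (hY : SubC T Y) {x : E} (hx : x ∈ X) {σ : Finset ι} (hσ : σ ∈ KK T Y) (h : sp T x ⊆ σ) :
    ∃ᶠ z in 𝓝[Y] x, sp T z = σ := by
  obtain ⟨y, hy, rfl⟩ := hσ
  have h1 : Tendsto (fun s : ℝ => x + s • (y - x)) (𝓝[>] 0) (𝓝[Y] x) := by
    refine tendsto_nhdsWithin_iff.2 ⟨?_, ?_⟩
    · have : Continuous fun s : ℝ => x + s • (y - x) := by fun_prop
      have h2 := this.tendsto 0
      rw [zero_smul, add_zero] at h2
      exact h2.mono_left nhdsWithin_le_nhds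
    · filter_upwards [Ioo_mem_nhdsGT one_pos] with s hs using (seg hY hx hy h hs.1 hs.2.le).1
  refine h1.frequently (Eventually.frequently ?_)
  filter_upwards [Ioo_mem_nhdsGT one_pos] with s hs using (seg hY hx hy h hs.1 hs.2.le).2

theorem down (hY : SubC T Y) {σ ρ : Finset ι} (hσ : σ ∈ KK T Y) (h : ρ ⊆ σ) (hne : ρ.Nonempty) :
    ρ ∈ KK T Y := by
  obtain ⟨y, hy, rfl⟩ := hσ
  have hc : (0 : ℝ) < ρ.card := by exact_mod_cast hne.card_pos
  obtain ⟨h1, h2⟩ := T.face y (hY.sub hy) (fun u => if u ∈ ρ then (ρ.card : ℝ)⁻¹ else 0)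
    (fun u => by split_ifs <;> positivity)
    (by rw [Finset.sum_ite_mem, Finset.univ_inter, Finset.sum_const, nsmul_eq_mul,
      mul_inv_cancel₀ hc.ne'])
    fun u hu => if_neg fun h' => (not_mem_sp (hY.sub hy)).2 hu (h h')
  have h3 : sp T (∑ u, (if u ∈ ρ then (ρ.card : ℝ)⁻¹ else 0) • T.pt u) = ρ := by
    ext u
    rw [mem_sp, h2]
    split_ifs with h4 <;> simp [h4, hc]
  exact ⟨_, hY.cl y hy _ h1 (h3.le.trans h), h3⟩

/-- local parametrisations at `x` -/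
theorem param (hY : SubC T Y) {x : E} (hx : x ∈ X) {u0 : ι} (hu0 : u0 ∈ sp T x) {A : Type*}
    [TopologicalSpace A] {a0 : A} {j : A → ι → ℝ} (hj : Continuous j) (j0 : j a0 = 0)
    (jp : ∀ a u, u ∉ sp T x → 0 ≤ j a u)
    (js : ∀ a, ∃ σ ∈ KK T Y, sp T x ⊆ σ ∧ ∀ u ∉ σ, j a u = 0) :
    ∃ m : A → E, Continuous m ∧ m a0 = x ∧
      ∀ᶠ a in 𝓝 a0, m a ∈ Y ∧ ∀ u, u ≠ u0 → T.be u (m a) = T.be u x + j a u := by
  set w : A → ι → ℝ := fun a u => T.be u x + j a u - if u = u0 then ∑ v, j a v else 0 with hw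
  have wc : ∀ u, Continuous fun a => w a u := fun u => by
    simp only [hw]; split_ifs <;> fun_prop
  have w0 : ∀ u, w a0 u = T.be u x := fun u => by simp [hw, j0]
  refine ⟨fun a => ∑ u, w a u • T.pt u, continuous_finsetSum _ fun u _ => (wc u).smul continuous_const,
    by simp only [w0]; exact T.rep x hx, ?_⟩
  have h1 : ∀ᶠ a in 𝓝 a0, ∀ u ∈ sp T x, 0 < w a u := (Finset.eventually_all _).2 fun u hu =>
    (wc u).continuousAt.eventually (lt_mem_nhds (show 0 < w a0 u by rw [w0]; exact mem_sp.1 hu))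
  filter_upwards [h1] with a ha
  obtain ⟨_, ⟨y, hy, rfl⟩, h2, h3⟩ := js a
  have hne : ∀ u, u ∉ sp T x → u ≠ u0 := fun u hu e => hu (e ▸ hu0)
  have h4 : ∀ u, u ∉ sp T y → w a u = 0 := fun u hu => by
    have h5 : u ∉ sp T x := fun h' => hu (h2 h')
    simp only [hw, if_neg (hne u h5), (not_mem_sp hx).1 h5, h3 u hu]; ring
  obtain ⟨h5, h6⟩ := T.face y (hY.sub hy) (w a) (fun u => by
      by_cases hu : u ∈ sp T x
      · exact (ha u hu).le
      · simp only [hw, if_neg (hne u hu), (not_mem_sp hx).1 hu]; linarith [jp a u hu])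
    (by simp only [hw, Finset.sum_sub_distrib, Finset.sum_add_distrib, T.sum x hx]; simp)
    fun u hu => h4 u ((not_mem_sp (hY.sub hy)).2 hu)
  refine ⟨hY.cl y hy _ h5 fun u hu => ?_, fun u hu => by rw [h6]; simp [hw, hu]⟩
  by_contra hn
  rw [mem_sp, h6, h4 u hn] at hu
  exact lt_irrefl _ hu

/-- extension by zero -/
def ez (s : Finset ι) (v : s → ℝ) (u : ι) : ℝ := if h : u ∈ s then v ⟨u, h⟩ else 0

theorem continuous_ez (s : Finset ι) : Continuous (ez s) := continuous_pi fun u => by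
  unfold ez; split_ifs <;> fun_prop

theorem finrank_fs (s : Finset ι) : finrank ℝ (s → ℝ) = s.card := by simp

/-- dimension -/
theorem dim_le (hY : SubC T Y) {x : E} (hx : x ∈ Y) {n : ℕ} {O : Set E} (hO : O ∈ 𝓝[Y] x)
    {φ : E → Fin n → ℝ} (hφ : ContinuousOn φ O) (hi : InjOn φ O) : (sp T x).card ≤ n + 1 := by
  by_contra hn
  have hxX := hY.sub hx
  obtain ⟨u0, hu0⟩ := sp_nonempty (T := T) hxX
  obtain ⟨m, mc, m0, hm⟩ := param hY hxX hu0 (a0 := 0) (continuous_ez ((sp T x).erase u0))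
    (by funext u; simp [ez])
    (fun a u hu => by rw [ez, dif_neg fun h => hu (Finset.mem_of_mem_erase h)])
    fun a => ⟨_, ⟨x, hx, rfl⟩, Finset.Subset.refl _, fun u hu =>
      dif_neg fun h => hu (Finset.mem_of_mem_erase h)⟩
  have h1 : Tendsto m (𝓝 0) (𝓝[Y] x) :=
    tendsto_nhdsWithin_iff.2 ⟨mc.tendsto' 0 x m0, hm.mono fun a ha => ha.1⟩
  obtain ⟨U, hU, Uo, U0⟩ := _root_.eventually_nhds_iff.1 (hm.and (h1 hO))
  refine no_inj' (A := ((sp T x).erase u0) → ℝ) (B := Fin n → ℝ) ?_ Uo ⟨0, U0⟩ (g := fun a => φ (m a))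
    (hφ.comp mc.continuousOn fun a ha => (hU a ha).2) fun a ha a' ha' e => ?_
  · rw [finrank_fs, Finset.card_erase_of_mem hu0, finrank_fin_fun]; omega
  · have h2 := hi (hU a ha).2 (hU a' ha').2 e
    funext u
    have h3 := (hU a ha).1.2 u (Finset.ne_of_mem_erase u.2)
    rw [h2, (hU a' ha').1.2 u (Finset.ne_of_mem_erase u.2)] at h3
    simpa [ez, u.2] using h3.symm

/-- a germ of a chart of `Y` at `x` with model `Q` -/
structure Gm (n : ℕ) (Y : Set E) (Q : Set (Fin n → ℝ)) (x : E) where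
  /-- domain -/
  O : Set E
  /-- range -/
  B : Set (Fin n → ℝ)
  /-- chart -/
  e : PLEquiv O B
  hx : x ∈ O
  OY : O ⊆ Y
  BQ : B ⊆ Q
  nO : O ∈ 𝓝[Y] x
  nB : B ∈ 𝓝[Q] (e.f x)

variable {n : ℕ} {Q : Set (Fin n → ℝ)} {x : E}

theorem Gm.small (g : Gm n Y Q x) {p : E → Prop} (h : ∀ᶠ y in 𝓝[Y] x, p y) :
    ∃ r > 0, ∀ z ∈ closedBall (g.e.f x) r ∩ Q, z ∈ g.B ∧ p (g.e.g z) := by
  have h1 : Tendsto g.e.g (𝓝[g.B] (g.e.f x)) (𝓝[Y] x) := by
    have := (g.e.pg.1 _ (g.e.mf g.hx)).tendsto_nhdsWithin (g.e.mg.mono_right g.OY)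
    rwa [g.e.li x g.hx] at this
  have h2 : ∀ᶠ z in 𝓝[Q] (g.e.f x), z ∈ g.B ∧ p (g.e.g z) :=
    Eventually.and g.nB ((h1.eventually h).filter_mono (nhdsWithin_le_iff.2 g.nB))
  obtain ⟨r, hr, h3⟩ := Metric.nhds_basis_closedBall.eventually_iff.1 (eventually_nhdsWithin_iff.1 h2)
  exact ⟨r, hr, fun z hz => h3 hz.1 hz.2⟩

theorem Gm.big (g : Gm n Y Q x) {N : Set (Fin n → ℝ)} (hN : N ∈ 𝓝 (g.e.f x)) :
    ∀ᶠ y in 𝓝[Y] x, y ∈ g.O ∧ g.e.f y ∈ N ∩ Q := by
  have h1 : ∀ᶠ y in 𝓝[g.O] x, g.e.f y ∈ N := g.e.pf.1 x g.hx hN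
  filter_upwards [g.nO, h1.filter_mono (nhdsWithin_le_iff.2 g.nO)] with y h2 h3
    using ⟨h2, h3, g.BQ (g.e.mf h2)⟩

theorem isClosed_simplex (τ : Finset ι) : IsClosed {y | y ∈ X ∧ sp T y ⊆ τ} := by
  have : {y | y ∈ X ∧ sp T y ⊆ τ} = X ∩ ⋂ u ∈ τᶜ, (X ∩ T.be u ⁻¹' {0}) := by
    ext y
    simp only [mem_ofPred_eq, mem_inter_iff, mem_iInter, Finset.mem_compl, mem_preimage, mem_singleton_iff]
    refine and_congr_right fun hy => ⟨fun h u hu => ⟨hy, (not_mem_sp hy).1 fun h' => hu (h h')⟩,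
      fun h u hu => ?_⟩
    by_contra hn
    exact (not_mem_sp hy).2 (h u hn).2 hu
  rw [this]
  exact T.cpt.isClosed.inter (isClosed_biInter fun u _ =>
    (T.cont u).preimage_isClosed_of_isClosed T.cpt.isClosed isClosed_singleton)

/-- purity -/
theorem Gm.pure (g : Gm n Y Q x) (hY : SubC T Y) (hQ : IsClosed Q) (hQ' : Q ⊆ closure (interior Q)) :
    ∃ τ ∈ KK T Y, n + 1 ≤ τ.card ∧ sp T x ⊆ τ := by
  by_contra hn
  have hxY := g.OY g.hx
  obtain ⟨r, hr, h⟩ := g.small ((ev_sub (T := T) (hY.sub hxY)).filter_mono (nhdsWithin_mono _ hY.sub))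
  set C := closedBall (g.e.f x) r ∩ Q with hC
  have Cc : IsClosed C := isClosed_closedBall.inter hQ
  have gc : ContinuousOn g.e.g C := g.e.pg.1.mono fun z hz => (h z hz).1
  have gY : ∀ z ∈ C, g.e.g z ∈ Y := fun z hz => g.OY (g.e.mg (h z hz).1)
  have h1 := Srf12.interior_empty (Finset.univ.filter fun τ : Finset ι => τ.Nonempty ∧ τ.card ≤ n)
    (fun τ => C ∩ g.e.g ⁻¹' {y | y ∈ X ∧ sp T y ⊆ τ})
    (fun τ => gc.preimage_isClosed_of_isClosed Cc (isClosed_simplex τ)) fun τ hτ => by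
      obtain ⟨⟨u0, hu0⟩, h2⟩ := (Finset.mem_filter.1 hτ).2
      by_contra hne
      refine no_inj' (A := Fin n → ℝ) (B := (τ.erase u0) → ℝ) ?_ isOpen_interior
        (nonempty_iff_ne_empty.2 hne) (g := fun z u => T.be u (g.e.g z))
        (continuousOn_pi.2 fun u => (T.cont u).comp (gc.mono (interior_subset.trans inter_subset_left))
          fun z hz => (interior_subset hz).2.1) fun z hz z' hz' e => ?_
      · have := Finset.card_pos.2 ⟨u0, hu0⟩
        rw [finrank_fs, Finset.card_erase_of_mem hu0, finrank_fin_fun]; omega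
      · obtain ⟨a1, a2, a3⟩ := interior_subset hz
        obtain ⟨b1, b2, b3⟩ := interior_subset hz'
        refine g.e.symm.injOn (h z a1).1 (h z' b1).1 (coord_inj (T := T) a2 b2 u0 fun u hu => ?_)
        by_cases hτ : u ∈ τ
        · exact congrFun e ⟨u, Finset.mem_erase.2 ⟨hu, hτ⟩⟩
        · exact ((not_mem_sp a2).1 fun h' => hτ (a3 h')).trans ((not_mem_sp b2).1 fun h' => hτ (b3 h')).symm
  obtain ⟨z, hz1, hz2⟩ := mem_closure_iff.1 (hQ' (g.BQ (g.e.mf g.hx))) _ isOpen_ball (mem_ball_self hr)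
  have h2 : z ∈ interior C := by
    rw [hC, interior_inter]
    exact ⟨interior_maximal ball_subset_closedBall isOpen_ball hz1, hz2⟩
  refine (h1 ▸ interior_mono (fun z hz => ?_) h2 : z ∈ (∅ : Set _))
  refine mem_biUnion (x := sp T (g.e.g z)) (Finset.mem_filter.2 ⟨Finset.mem_univ _,
    sp_nonempty (hY.sub (gY z hz)), ?_⟩) ⟨hz, hY.sub (gY z hz), Finset.Subset.refl _⟩
  by_contra h3
  exact hn ⟨_, ⟨_, gY z hz, rfl⟩, by omega, (h z hz).2⟩

/-- two top simplices on a facet fill a neighbourhood -/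
theorem Gm.two (g : Gm n Y Q x) (hY : SubC T Y) (hc : (sp T x).card = n) {u1 u2 : ι}
    (h1 : u1 ∉ sp T x) (h2 : u2 ∉ sp T x) (h12 : u1 ≠ u2) (k1 : insert u1 (sp T x) ∈ KK T Y)
    (k2 : insert u2 (sp T x) ∈ KK T Y) :
    Q ∈ 𝓝 (g.e.f x) ∧ ∀ u, u ∉ sp T x → insert u (sp T x) ∈ KK T Y → u = u1 ∨ u = u2 := by
  have hxX := hY.sub (g.OY g.hx)
  obtain ⟨u0, hu0⟩ := sp_nonempty (T := T) hxX
  set s := (sp T x).erase u0 with hs
  have ns : ∀ u, u ∉ sp T x → u ∉ s := fun u hu h => hu (Finset.mem_of_mem_erase h)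
  set j : (s → ℝ) × ℝ → ι → ℝ := fun a u =>
    ez s a.1 u + (if u = u1 then max a.2 0 else 0) + if u = u2 then max (-a.2) 0 else 0 with hj
  have jo : ∀ a u, u ∉ s → u ≠ u1 → u ≠ u2 → j a u = 0 := fun a u a1 a2 a3 => by
    simp [hj, ez, a1, a2, a3]
  have j1 : ∀ a, j a u1 = max a.2 0 := fun a => by simp [hj, ez, ns u1 h1, h12]
  have j2 : ∀ a, j a u2 = max (-a.2) 0 := fun a => by simp [hj, ez, ns u2 h2, h12.symm]
  have j3 : ∀ a (u : s), j a u = a.1 u := fun a u => by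
    have a1 : u.1 ≠ u1 := fun e => ns u1 h1 (e ▸ u.2)
    have a2 : u.1 ≠ u2 := fun e => ns u2 h2 (e ▸ u.2)
    simp [hj, ez, a1, a2]
  obtain ⟨m, mc, m0, hm⟩ := param hY hxX hu0 (a0 := 0) (j := j)
    (continuous_pi fun u => by
      have := (continuous_apply u).comp (continuous_ez s)
      simp only [hj]
      split_ifs <;> fun_prop)
    (by funext u; simp [hj, ez])
    (fun a u hu => by
      simp only [hj, ez, dif_neg (ns u hu)]
      split_ifs <;> positivity)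
    fun a => by
      rcases le_total 0 a.2 with h | h
      · refine ⟨_, k1, Finset.subset_insert _ _, fun u hu => ?_⟩
        rw [Finset.mem_insert, not_or] at hu
        by_cases e : u = u2
        · rw [e, j2, max_eq_right (by linarith)]
        · exact jo a u (ns u hu.2) hu.1 e
      · refine ⟨_, k2, Finset.subset_insert _ _, fun u hu => ?_⟩
        rw [Finset.mem_insert, not_or] at hu
        by_cases e : u = u1
        · rw [e, j1, max_eq_right h]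
        · exact jo a u (ns u hu.2) e hu.1
  have n1 : u1 ≠ u0 := fun e => h1 (e ▸ hu0)
  have n2 : u2 ≠ u0 := fun e => h2 (e ▸ hu0)
  have t1 : Tendsto m (𝓝 0) (𝓝[Y] x) :=
    tendsto_nhdsWithin_iff.2 ⟨mc.tendsto' 0 x m0, hm.mono fun a ha => ha.1⟩
  obtain ⟨U, hU, Uo, U0⟩ := _root_.eventually_nhds_iff.1 (hm.and (t1 g.nO))
  have op : IsOpen ((fun a => g.e.f (m a)) '' U) := by
    refine R105.Iod1_690.isOpen_image_fd ?_ Uo (g.e.pf.1.comp mc.continuousOn fun a ha => (hU a ha).2)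
      fun a ha a' ha' e => ?_
    · have := Finset.card_pos.2 ⟨u0, hu0⟩
      rw [finrank_prod, finrank_fs, hs, Finset.card_erase_of_mem hu0, finrank_fin_fun, finrank_self]
      omega
    · have h3 := g.e.injOn (hU a ha).2 (hU a' ha').2 e
      have h4 : ∀ u, u ≠ u0 → j a u = j a' u := fun u hu => by
        have h5 := (hU a ha).1.2 u hu
        rw [h3, (hU a' ha').1.2 u hu] at h5
        linarith
      refine Prod.ext (funext fun u => ?_) ?_
      · rw [← j3, ← j3]; exact h4 u (Finset.ne_of_mem_erase u.2)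
      · have h5 := h4 u1 n1
        have h6 := h4 u2 n2
        rw [j1, j1] at h5
        rw [j2, j2] at h6
        linarith [max_zero_sub_max_neg_zero_eq_self a.2, max_zero_sub_max_neg_zero_eq_self a'.2]
  have hN : (fun a => g.e.f (m a)) '' U ∈ 𝓝 (g.e.f x) := op.mem_nhds ⟨0, U0, by simp only [m0]⟩
  refine ⟨mem_of_superset hN (by rintro _ ⟨a, ha, rfl⟩; exact g.BQ (g.e.mf (hU a ha).2)),
    fun u hu hk => ?_⟩
  by_contra hn
  rw [not_or] at hn
  obtain ⟨z, hz, hzO, ⟨a, ha, e⟩, -⟩ :=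
    ((near hY hxX hk (Finset.subset_insert _ _)).and_eventually (g.big hN)).exists
  have h3 : m a = z := g.e.injOn (hU a ha).2 hzO e
  have h4 := (hU a ha).1.2 u fun e => hu (e ▸ hu0)
  rw [h3, (not_mem_sp hxX).1 hu, jo a u (ns u hu) hn.1 hn.2] at h4
  have h5 : u ∈ sp T z := hz ▸ Finset.mem_insert_self _ _
  rw [mem_sp, h4] at h5
  simp at h5

/-- one top simplex on a facet does not fill a neighbourhood -/
theorem Gm.one (g : Gm n Y Q x) (hY : SubC T Y) (hc : (sp T x).card = n) {u1 : ι} (h1 : u1 ∉ sp T x)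
    (k : ∀ u, u ∉ sp T x → insert u (sp T x) ∈ KK T Y → u = u1) : Q ∉ 𝓝 (g.e.f x) := by
  intro hQ
  have hxX := hY.sub (g.OY g.hx)
  obtain ⟨u0, hu0⟩ := sp_nonempty (T := T) hxX
  obtain ⟨r, hr, h⟩ := g.small ((ev_sub (T := T) hxX).filter_mono (nhdsWithin_mono _ hY.sub))
  set U := ball (g.e.f x) r ∩ interior Q with hU
  have Uo : IsOpen U := isOpen_ball.inter isOpen_interior
  have hU' : ∀ z ∈ U, z ∈ g.B ∧ g.e.g z ∈ X ∧ ∀ u, u ∉ sp T x → u ≠ u1 → T.be u (g.e.g z) = 0 := by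
    intro z hz
    obtain ⟨a1, a2⟩ := h z ⟨ball_subset_closedBall hz.1, interior_subset hz.2⟩
    have a3 := g.OY (g.e.mg a1)
    refine ⟨a1, hY.sub a3, fun u hu hu' => (not_mem_sp (hY.sub a3)).1 fun h' => hu' (k u hu ?_)⟩
    exact down hY ⟨_, a3, rfl⟩ (Finset.insert_subset h' a2) (Finset.insert_nonempty _ _)
  have gc : ∀ u, ContinuousOn (fun z => T.be u (g.e.g z)) U := fun u =>
    (T.cont u).comp (g.e.pg.1.mono fun z hz => (hU' z hz).1) fun z hz => (hU' z hz).2.1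
  have op : IsOpen ((fun z => ((fun u : (sp T x).erase u0 => T.be u (g.e.g z)), T.be u1 (g.e.g z))) '' U) := by
    refine R105.Iod1_690.isOpen_image_fd ?_ Uo ((continuousOn_pi.2 fun u : (sp T x).erase u0 => gc u).prodMk (gc u1))
      fun z hz z' hz' e => ?_
    · have := Finset.card_pos.2 ⟨u0, hu0⟩
      rw [finrank_prod, finrank_fs, Finset.card_erase_of_mem hu0, finrank_fin_fun, finrank_self]
      omega
    · refine g.e.symm.injOn (hU' z hz).1 (hU' z' hz').1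
        (coord_inj (T := T) (hU' z hz).2.1 (hU' z' hz').2.1 u0 fun u hu => ?_)
      by_cases h2 : u ∈ sp T x
      · exact congrFun (congrArg Prod.fst e) ⟨u, Finset.mem_erase.2 ⟨hu, h2⟩⟩
      · by_cases h3 : u = u1
        · rw [h3]; exact congrArg Prod.snd e
        · exact ((hU' z hz).2.2 u h2 h3).trans ((hU' z' hz').2.2 u h2 h3).symm
  have h2 := (isOpenMap_snd _ op).mem_nhds
    ⟨_, ⟨g.e.f x, ⟨mem_ball_self hr, mem_interior_iff_mem_nhds.2 hQ⟩, rfl⟩, rfl⟩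
  simp only [g.e.li x g.hx, (not_mem_sp hxX).1 h1] at h2
  obtain ⟨t, ⟨_, ⟨z, hz, rfl⟩, rfl⟩, ht⟩ :=
    ((show ∀ᶠ t in 𝓝[<] (0 : ℝ), _ from mem_nhdsWithin_of_mem_nhds h2).and self_mem_nhdsWithin).exists
  exact absurd (T.nn _ (hU' z hz).2.1 u1) (not_le.2 ht)

/-- the number of top simplices on a facet -/
theorem Gm.count (g : Gm n Y Q x) (hY : SubC T Y) (hQ : IsClosed Q) (hQ' : Q ⊆ closure (interior Q))
    (hc : (sp T x).card = n) (hd : ∀ σ ∈ KK T Y, σ.card ≤ n + 1) :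
    (Q ∈ 𝓝 (g.e.f x) → {τ | τ ∈ KK T Y ∧ τ.card = n + 1 ∧ sp T x ⊆ τ}.ncard = 2) ∧
    (Q ∉ 𝓝 (g.e.f x) → {τ | τ ∈ KK T Y ∧ τ.card = n + 1 ∧ sp T x ⊆ τ}.ncard = 1) := by
  have ins : ∀ τ : Finset ι, τ.card = n + 1 → sp T x ⊆ τ → ∃ u, u ∉ sp T x ∧ insert u (sp T x) = τ :=
    fun τ h1 h2 => Finset.exists_eq_insert_iff.2 ⟨h2, by omega⟩
  obtain ⟨τ, t1, t2, t3⟩ := g.pure hY hQ hQ'
  obtain ⟨u1, h1, rfl⟩ := ins τ (le_antisymm (hd τ t1) t2) t3
  have mem : ∀ u, u ∉ sp T x → insert u (sp T x) ∈ KK T Y →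
      insert u (sp T x) ∈ {τ | τ ∈ KK T Y ∧ τ.card = n + 1 ∧ sp T x ⊆ τ} := fun u hu hk =>
    ⟨hk, by rw [Finset.card_insert_of_notMem hu, hc], Finset.subset_insert _ _⟩
  by_cases k : ∀ u, u ∉ sp T x → insert u (sp T x) ∈ KK T Y → u = u1
  · refine ⟨fun h => (g.one hY hc h1 k h).elim, fun _ => ncard_eq_one.2 ⟨insert u1 (sp T x), ?_⟩⟩
    refine Subset.antisymm (fun τ hτ => ?_) (singleton_subset_iff.2 (mem u1 h1 t1))
    obtain ⟨u, hu, rfl⟩ := ins τ hτ.2.1 hτ.2.2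
    rw [k u hu hτ.1]; rfl
  · push Not at k
    obtain ⟨u2, h2, k2, h12⟩ := k
    obtain ⟨a1, a2⟩ := g.two hY hc h1 h2 h12.symm t1 k2
    refine ⟨fun _ => ncard_eq_two.2 ⟨insert u1 (sp T x), insert u2 (sp T x), fun e => ?_, ?_⟩,
      fun h => (h a1).elim⟩
    · have : u2 ∈ insert u1 (sp T x) := e ▸ Finset.mem_insert_self _ _
      exact (Finset.mem_insert.1 this).elim h12 h2
    · refine Subset.antisymm (fun τ hτ => ?_) (pair_subset (mem u1 h1 t1) (mem u2 h2 k2))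
      obtain ⟨u, hu, rfl⟩ := ins τ hτ.2.1 hτ.2.2
      rcases a2 u hu hτ.1 with rfl | rfl
      exacts [Or.inl rfl, Or.inr rfl]

end Crest.Agent.X212.Loc49
end

-- ▼ part X212/Loc49/Cnn
section

/-!
Row 212, layer T, package G-LOC (helper49), part 2: codimension two does not separate; punctured
stars of vertices carry no double cover.
-/

set_option autoImplicit false
set_option linter.style.longLine false
set_option linter.unusedSectionVars false

open Set Metric Filter Topology Module MeasureTheory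

namespace Crest.Agent.X212.Loc49

open Crest.Agent.R096.Ce_537 Crest.Agent.X212.Tw9 Crest.Agent.X212.Lev33
open Crest.Agent.X212.Prd34 (V P up lv)

theorem exists_off {n : ℕ} {κ : Type*} (I : Finset κ) (S : κ → Finset (Fin n → ℝ))
    (hS : ∀ i ∈ I, (S i).card ≤ n) {U : Set (Fin n → ℝ)} (hU : IsOpen U) (hne : U.Nonempty) :
    ∃ z ∈ U, ∀ i ∈ I, z ∉ affineSpan ℝ (S i : Set (Fin n → ℝ)) := by
  by_contra hn
  push Not at hn
  have h1 : volume (⋃ i ∈ I, (affineSpan ℝ (S i : Set (Fin n → ℝ)) : Set (Fin n → ℝ))) = 0 := by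
    refine (measure_biUnion_null_iff I.countable_toSet).2 fun i hi => ?_
    refine Measure.addHaar_affineSubspace volume _ fun h => ?_
    rcases (S i).eq_empty_or_nonempty with he | hne'
    · rw [he, Finset.coe_empty, AffineSubspace.span_empty] at h
      exact bot_ne_top h
    · obtain ⟨k, hk⟩ : ∃ k, (S i).card = k + 1 := Nat.exists_eq_succ_of_ne_zero hne'.card_pos.ne'
      have h2 := finrank_vectorSpan_image_finset_le ℝ (id : (Fin n → ℝ) → Fin n → ℝ) (S i) hk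
      rw [Finset.image_id, ← direction_affineSpan, h, AffineSubspace.direction_top, finrank_top,
        finrank_fin_fun] at h2
      have := hS i hi
      omega
  exact (hU.measure_pos volume hne).ne' (measure_mono_null (fun z hz => by
    obtain ⟨i, hi, h⟩ := hn z hz
    exact mem_biUnion hi h) h1)

theorem pre_diff {n : ℕ} {κ : Type*} (I : Finset κ) (S : κ → Finset (Fin n → ℝ))
    (hS : ∀ i ∈ I, (S i).card + 1 ≤ n) {C Z : Set (Fin n → ℝ)} (hC : Convex ℝ C)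
    (hC' : C ⊆ closure (interior C))
    (hZ : ∀ z ∈ Z, z ∈ C → ∃ i ∈ I, z ∈ affineSpan ℝ (S i : Set (Fin n → ℝ))) :
    IsPreconnected (C \ Z) := by
  classical
  set D : Set (Fin n → ℝ) := {z | z ∈ C ∧ ∀ i ∈ I, z ∉ affineSpan ℝ (S i : Set (Fin n → ℝ))} with hD
  have h1 : IsPreconnected D := by
    refine isPreconnected_of_forall_pair fun p hp q hq => ?_
    obtain ⟨r0, hr0⟩ := closure_nonempty_iff.1 ⟨p, hC' hp.1⟩
    obtain ⟨r, hr, hr'⟩ := exists_off (I ×ˢ ({p, q} : Finset _)) (fun a => insert a.2 (S a.1))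
      (fun a ha => (Finset.card_insert_le _ _).trans (hS _ (Finset.mem_product.1 ha).1))
      isOpen_interior ⟨r0, hr0⟩
    have sg : ∀ w ∈ D, w ∈ ({p, q} : Finset _) → segment ℝ w r ⊆ D := by
      intro w hw hw' z hz
      refine ⟨hC.segment_subset hw.1 (interior_subset hr) hz, fun i hi hzi => ?_⟩
      rw [segment_eq_image_lineMap] at hz
      obtain ⟨t, -, rfl⟩ := hz
      by_cases ht : t = 0
      · rw [ht, AffineMap.lineMap_apply_zero] at hzi; exact hw.2 i hi hzi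
      · refine hr' (i, w) (Finset.mem_product.2 ⟨hi, hw'⟩) ?_
        have e : r = AffineMap.lineMap w (AffineMap.lineMap w r t) t⁻¹ := by
          rw [AffineMap.lineMap_lineMap_right, inv_mul_cancel₀ ht, AffineMap.lineMap_apply_one]
        rw [e, Finset.coe_insert]
        exact AffineMap.lineMap_mem _ (mem_affineSpan ℝ (mem_insert _ _))
          (affineSpan_mono ℝ (subset_insert _ _) hzi)
    exact ⟨segment ℝ p r ∪ segment ℝ q r, union_subset (sg p hp (by simp)) (sg q hq (by simp)),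
      Or.inl (left_mem_segment _ _ _), Or.inr (left_mem_segment _ _ _),
      IsPreconnected.union r (right_mem_segment _ _ _) (right_mem_segment _ _ _)
        (convex_segment _ _).isPreconnected (convex_segment _ _).isPreconnected⟩
  refine h1.subset_closure (fun z hz => ⟨hz.1, fun h => ?_⟩) fun z hz => ?_
  · obtain ⟨i, hi, h2⟩ := hZ z h hz.1
    exact hz.2 i hi h2
  · refine mem_closure_iff.2 fun U hU hzU => ?_
    obtain ⟨w, hw, hw'⟩ := exists_off I S (fun i hi => by have := hS i hi; omega)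
      (hU.inter isOpen_interior) (mem_closure_iff.1 (hC' hz.1) U hU hzU)
    exact ⟨w, hw.1, interior_subset hw.2, hw'⟩

theorem ball_inter_dense {F : Type*} [PseudoMetricSpace F] {Q : Set F} (hQ : Q ⊆ closure (interior Q))
    (c : F) (r : ℝ) : ball c r ∩ Q ⊆ closure (interior (ball c r ∩ Q)) := fun z hz => by
  rw [interior_inter, isOpen_ball.interior_eq]
  exact isOpen_ball.inter_closure ⟨hz.1, hQ hz.2⟩

theorem prim_half {Γ : Type*} [Group Γ] {c : V} {r s : ℝ} (hr : 0 < r) (hs : |s| = 1) {d : V → V → Γ}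
    (hd : Coc ((ball c r ∩ {y | 0 ≤ s * (y 2 - c 2)}) \ {c}) d) :
    ∃ b, Prim ((ball c r ∩ {y | 0 ≤ s * (y 2 - c 2)}) \ {c}) d b := by
  have ss : s * s = 1 := by rw [← abs_mul_abs_self, hs]; ring
  set q : V := c + Pi.single 2 (s * (r / 2)) with hq
  have q2 : s * (q 2 - c 2) = r / 2 := by
    simp only [hq, Pi.add_apply, Pi.single_eq_same, add_sub_cancel_left]
    rw [← mul_assoc, ss, one_mul]
  have qb : q ∈ ball c r := by
    rw [mem_ball, dist_eq_norm, hq, add_sub_cancel_left, Pi.norm_single, Real.norm_eq_abs, abs_mul, hs,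
      abs_of_pos (half_pos hr)]
    linarith
  have q3 : 0 ≤ s * (q 2 - c 2) := by rw [q2]; linarith
  refine Coc.prim_star (x0 := q) (And.intro ⟨qb, q3⟩ fun h => ?_) ?_ hd
  · rw [show q = c from h, sub_self, mul_zero] at q2; linarith
  · intro y hy a b ha hb hab
    have e : s * ((a • q + b • y) 2 - c 2) = a * (r / 2) + b * (s * (y 2 - c 2)) := by
      rw [← q2]
      simp only [Pi.add_apply, Pi.smul_apply, smul_eq_mul]
      rw [show b = 1 - a by linarith]; ring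
    have h1 : 0 ≤ s * (y 2 - c 2) := hy.1.2
    have h3 : 0 ≤ s * ((a • q + b • y) 2 - c 2) := by rw [e]; positivity
    refine ⟨⟨convex_ball c r qb hy.1.1 ha hb hab, h3⟩, fun h => ?_⟩
    rw [show a • q + b • y = c from h, sub_self, mul_zero] at e
    have h2 : a = 0 := by nlinarith [mul_nonneg hb h1]
    rw [h2, show b = 1 by linarith, zero_smul, one_smul, zero_add] at h
    exact hy.2 h

theorem prim_ball {Γ : Type*} [Group Γ] {c : V} {r : ℝ} (hr : 0 < r) {d : V → V → Γ}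
    (hd : Coc (ball c r \ {c}) d) : ∃ b, Prim (ball c r \ {c}) d b := by
  classical
  set A : ℝ → Set V := fun s => (ball c r ∩ {y | 0 ≤ s * (y 2 - c 2)}) \ {c} with hA
  have sA : ∀ s, A s ⊆ ball c r \ {c} := fun s y hy => ⟨hy.1.1, hy.2⟩
  obtain ⟨b1, h1⟩ := prim_half (s := 1) hr (by simp) (hd.mono (sA 1))
  obtain ⟨b2, h2⟩ := prim_half (s := -1) hr (by simp) (hd.mono (sA (-1)))
  have hI : IsPreconnected (A 1 ∩ A (-1)) := by
    have h3 := pre_diff (n := 2) ({0} : Finset ℕ) (fun _ => {![c 0, c 1]}) (by simp)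
      (convex_ball (![c 0, c 1] : P) r) (by rw [isOpen_ball.interior_eq]; exact subset_closure)
      (Z := {![c 0, c 1]}) fun z hz _ => ⟨0, by simp, mem_affineSpan ℝ (by simpa using hz)⟩
    have lc : Continuous (lv (c 2)) := continuous_pi fun i => by
      fin_cases i
      exacts [continuous_apply (0 : Fin 2), continuous_apply (1 : Fin 2), continuous_const]
    convert h3.image _ lc.continuousOn using 1
    ext y
    constructor
    · rintro ⟨⟨⟨a1, a2⟩, a3⟩, ⟨-, a4⟩, -⟩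
      have a5 : y 2 = c 2 := by
        have a6 : 0 ≤ 1 * (y 2 - c 2) := a2
        have a7 : 0 ≤ -1 * (y 2 - c 2) := a4
        linarith
      have a8 : lv (c 2) ![y 0, y 1] = y := by
        funext i; fin_cases i
        exacts [rfl, rfl, a5.symm]
      refine ⟨![y 0, y 1], ⟨?_, fun h => a3 ?_⟩, a8⟩
      · rw [mem_ball, dist_pi_lt_iff hr] at a1 ⊢
        intro i; fin_cases i
        exacts [a1 0, a1 1]
      · funext i; fin_cases i
        exacts [congrFun h 0, congrFun h 1, a5]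
    · rintro ⟨z, ⟨a1, a2⟩, rfl⟩
      have a3 : lv (c 2) z ∈ ball c r := by
        rw [mem_ball, dist_pi_lt_iff hr] at a1 ⊢
        intro i; fin_cases i
        exacts [a1 0, a1 1, by simpa [lv] using hr]
      have a4 : lv (c 2) z ∉ ({c} : Set V) := fun h => a2 (by
        funext i; fin_cases i
        exacts [congrFun h 0, congrFun h 1])
      exact ⟨⟨⟨a3, by simp [lv]⟩, a4⟩, ⟨a3, by simp [lv]⟩, a4⟩
  obtain ⟨k, hk⟩ : ∃ k : Γ, ∀ y ∈ A 1 ∩ A (-1), b1 y = k * b2 y := by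
    rcases (A 1 ∩ A (-1)).eq_empty_or_nonempty with he | ⟨x, hx⟩
    · exact ⟨1, by rw [he]; exact fun y hy => hy.elim⟩
    · exact ⟨_, fun y hy => (h2.mono inter_subset_right).uniq (h1.mono inter_subset_left) hI hx hy⟩
  have rc : ∀ s t, RelCl (A s) (A t) := fun s t y hy hn => by
    rw [← notMem_closure_iff_nhdsWithin_eq_bot]
    intro h
    refine hn ⟨⟨hy.1.1, ?_⟩, hy.2⟩
    exact closure_minimal (fun z hz => hz.1.2)
      (isClosed_le continuous_const (by fun_prop) : IsClosed {y : V | 0 ≤ s * (y 2 - c 2)}) h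
  refine ⟨fun y => if y ∈ A 1 then b1 y else k * b2 y, (Prim.union (rc 1 (-1)) (rc (-1) 1)
    (h1.congr' fun y hy => if_pos hy) ((h2.mul_left k).congr' fun y hy => ?_)).mono fun y hy => ?_⟩
  · split_ifs with h
    · exact hk y ⟨h, hy⟩
    · rfl
  · rcases le_total (c 2) (y 2) with h | h
    · exact Or.inl ⟨⟨hy.1, show 0 ≤ 1 * (y 2 - c 2) by linarith⟩, hy.2⟩
    · exact Or.inr ⟨⟨hy.1, show 0 ≤ -1 * (y 2 - c 2) by linarith⟩, hy.2⟩

theorem prim_up {Γ : Type*} [Group Γ] {c : V} (hc : c ∈ up) {r0 : ℝ} (hr0 : 0 < r0) :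
    ∃ r > 0, r ≤ r0 ∧ ∀ d : V → V → Γ, Coc ((ball c r ∩ up) \ {c}) d →
      ∃ b, Prim ((ball c r ∩ up) \ {c}) d b := by
  rcases (show 0 ≤ c 2 from hc).eq_or_lt with h | h
  · have e : up = {y : V | 0 ≤ 1 * (y 2 - c 2)} := by ext y; simp [up, ← h]
    exact ⟨r0, hr0, le_rfl, fun d hd => by rw [e] at hd ⊢; exact prim_half hr0 (by simp) hd⟩
  · have e : ball c (min r0 (c 2)) ∩ up = ball c (min r0 (c 2)) := inter_eq_left.2 fun y hy => by
      have h1 := (dist_le_pi_dist y c 2).trans_lt (hy.trans_le (min_le_right _ _))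
      rw [Real.dist_eq, abs_lt] at h1
      show 0 ≤ y 2
      linarith [h1.1]
    exact ⟨_, lt_min hr0 h, min_le_left _ _, fun d hd => by
      rw [e] at hd ⊢; exact prim_ball (lt_min hr0 h) hd⟩

variable {E : Type} [NormedAddCommGroup E] [NormedSpace ℝ E] {ι : Type} [Fintype ι] [DecidableEq ι]
  {X : Set E} {T : Tri ι X} {Y : Set E} {n : ℕ} {Q : Set (Fin n → ℝ)} {x : E}

theorem mem_span {y : E} (hy : y ∈ X) (a : E →ᵃ[ℝ] (Fin n → ℝ)) :
    a y ∈ affineSpan ℝ (((sp T y).image fun u => a (T.pt u) : Finset (Fin n → ℝ)) : Set (Fin n → ℝ)) := by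
  have h1 : ∑ u ∈ sp T y, T.be u y = 1 := by
    rw [← T.sum y hy]
    exact Finset.sum_subset (Finset.subset_univ _) fun u _ hu => (not_mem_sp hy).1 hu
  have h2 : (sp T y).affineCombination ℝ T.pt (fun u => T.be u y) = y := by
    rw [Finset.affineCombination_eq_linear_combination _ _ _ h1]
    refine Eq.trans ?_ (T.rep y hy)
    exact Finset.sum_subset (Finset.subset_univ _) fun u _ hu => by rw [(not_mem_sp hy).1 hu, zero_smul]
  rw [← h2, Finset.map_affineCombination _ _ _ h1, h2, Finset.coe_image]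
  exact affineCombination_mem_affineSpan_image h1 (fun u hu hu' => (hu' hu).elim) _

/-- the star of a simplex of codimension at least two is not separated by the simplex -/
theorem Gm.conn (g : Gm n Y Q x) (hY : SubC T Y) (hQ : IsClosed Q) (hQ' : Q ⊆ closure (interior Q))
    (hQc : Convex ℝ Q) (hc : (sp T x).card + 1 ≤ n) :
    Dsc37.Conn Dsc37.sub {σ | σ ∈ KK T Y ∧ sp T x ⊆ σ ∧ σ ≠ sp T x} := by
  have hxX := hY.sub (g.OY g.hx)
  obtain ⟨τ, t1, t2, t3⟩ := g.pure hY hQ hQ'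
  refine ⟨⟨τ, t1, t3, fun e => by rw [e] at t2; omega⟩, fun κ hκ => ?_⟩
  obtain ⟨r, hr, h⟩ := g.small ((ev_sub (T := T) hxX).filter_mono (nhdsWithin_mono _ hY.sub))
  obtain ⟨-, S, hS⟩ := g.e.pf
  set C := ball (g.e.f x) r ∩ Q with hC
  have h' : ∀ z ∈ C, z ∈ g.B ∧ sp T x ⊆ sp T (g.e.g z) := fun z hz =>
    h z ⟨ball_subset_closedBall hz.1, hz.2⟩
  have gY : ∀ z ∈ C, g.e.g z ∈ Y := fun z hz => g.OY (g.e.mg (h' z hz).1)
  have hp := pre_diff S (fun a => (sp T x).image fun u => a (T.pt u))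
    (fun a _ => (Nat.succ_le_succ Finset.card_image_le).trans hc) ((convex_ball _ _).inter hQc)
    (ball_inter_dense hQ' (g.e.f x) r) (Z := {z | sp T (g.e.g z) = sp T x}) fun z hz hzC => by
      obtain ⟨a, ha, e⟩ := hS _ (g.e.mg (h' z hzC).1)
      rw [g.e.ri z (h' z hzC).1] at e
      refine ⟨a, ha, ?_⟩
      have h5 := mem_span (T := T) (hY.sub (gY z hzC)) a
      rw [← e, show sp T (g.e.g z) = sp T x from hz] at h5
      exact h5
  have hl : LCo (A := Prop) (C \ {z | sp T (g.e.g z) = sp T x}) fun z => κ (sp T (g.e.g z)) := by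
    intro z hz
    have h1 : Tendsto g.e.g (𝓝[C \ {z | sp T (g.e.g z) = sp T x}] z) (𝓝[X] (g.e.g z)) :=
      ((g.e.pg.1 z (h' z hz.1).1).mono fun w hw => (h' w hw.1).1).tendsto_nhdsWithin
        fun w hw => hY.sub (gY w hw.1)
    filter_upwards [h1 (ev_sub (T := T) (hY.sub (gY z hz.1))), self_mem_nhdsWithin] with w h2 h3
    exact propext (hκ _ ⟨⟨_, gY z hz.1, rfl⟩, (h' z hz.1).2, hz.2⟩ _
      ⟨⟨_, gY w h3.1, rfl⟩, (h' w h3.1).2, h3.2⟩ h2).symm
  have rep : ∀ σ ∈ {σ | σ ∈ KK T Y ∧ sp T x ⊆ σ ∧ σ ≠ sp T x},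
      ∃ z ∈ C \ {z | sp T (g.e.g z) = sp T x}, sp T (g.e.g z) = σ := fun σ hσ => by
    obtain ⟨y, h1, h2, h3⟩ :=
      ((near hY hxX hσ.1 hσ.2.1).and_eventually (g.big (ball_mem_nhds _ hr))).exists
    have h4 : sp T (g.e.g (g.e.f y)) = σ := by rw [g.e.li y h2, h1]
    exact ⟨_, ⟨h3, fun h5 => hσ.2.2 (h4.symm.trans h5)⟩, h4⟩
  intro σ hσ ρ hρ
  obtain ⟨z, hz, rfl⟩ := rep σ hσ
  obtain ⟨w, hw, rfl⟩ := rep ρ hρ
  exact iff_of_eq (hl.eq hp hz hw)

theorem convex_fib (hY : SubC T Y) (σ : Finset ι) : Convex ℝ {y | y ∈ Y ∧ sp T y = σ} := by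
  intro y hy y' hy' a b ha hb hab
  rcases hb.eq_or_lt with h | h
  · rw [← h, show a = 1 by linarith, one_smul, zero_smul, add_zero]; exact hy
  · obtain ⟨h1, h2⟩ := seg hY (hY.sub hy.1) hy'.1 (hy.2.trans hy'.2.symm).le h (by linarith)
    have e : a • y + b • y' = y + b • (y' - y) := by
      rw [show a = 1 - b by linarith, sub_smul, one_smul, smul_sub]; abel
    rw [e]; exact ⟨h1, h2.trans hy'.2⟩

/-- the punctured star of a vertex has no double cover -/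
theorem Gm.vert (g : Gm 3 Y up x) (hY : SubC T Y) {a : ι} (ha : sp T x = {a}) :
    Dsc37.H0 Dsc37.sub {σ | σ ∈ KK T Y ∧ a ∈ σ ∧ σ ≠ {a}} := by
  intro c hc
  have hxX := hY.sub (g.OY g.hx)
  have uniq : ∀ y ∈ X, sp T y = {a} → y = x := fun y hy h => coord_inj (T := T) hy hxX a fun u hu => by
    rw [(not_mem_sp hy).1 (by rw [h]; simpa using hu), (not_mem_sp hxX).1 (by rw [ha]; simpa using hu)]
  obtain ⟨r0, hr0, h⟩ := g.small ((ev_sub (T := T) hxX).filter_mono (nhdsWithin_mono _ hY.sub))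
  obtain ⟨r, hr, hrr, H⟩ := prim_up (Γ := Multiplicative (ZMod 2)) (g.BQ (g.e.mf g.hx)) hr0
  set N := (ball (g.e.f x) r ∩ up) \ {g.e.f x} with hN
  have h' : ∀ z ∈ N, z ∈ g.B ∧ g.e.g z ∈ Y ∧ sp T (g.e.g z) ∈ {σ | σ ∈ KK T Y ∧ a ∈ σ ∧ σ ≠ {a}} := by
    intro z hz
    obtain ⟨h1, h2⟩ := h z ⟨(ball_subset_closedBall.trans (closedBall_subset_closedBall hrr)) hz.1.1, hz.1.2⟩
    have h3 := g.OY (g.e.mg h1)
    refine ⟨h1, h3, ⟨_, h3, rfl⟩, h2 (by rw [ha]; simp), fun h4 => hz.2 ?_⟩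
    exact (g.e.ri z h1).symm.trans (congrArg g.e.f (uniq _ (hY.sub h3) h4))
  have ev : ∀ z ∈ N, ∀ᶠ w in 𝓝[N] z, sp T (g.e.g z) ⊆ sp T (g.e.g w) := fun z hz =>
    (((g.e.pg.1 z (h' z hz).1).mono fun w hw => (h' w hw).1).tendsto_nhdsWithin
      fun w hw => hY.sub (h' w hw).2.1) (ev_sub (T := T) (hY.sub (h' z hz).2.1))
  obtain ⟨b, hb⟩ := H (fun z w => Multiplicative.ofAdd (c (sp T (g.e.g z)) (sp T (g.e.g w)))) (by
    intro z hz
    filter_upwards [ev z hz, self_mem_nhdsWithin] with w h1 hw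
    filter_upwards [ev w hw, self_mem_nhdsWithin] with v h2 hv
    rw [hc _ (h' z hz).2.2 _ (h' w hw).2.2 _ (h' v hv).2.2 h1 h2, ofAdd_add])
  obtain ⟨ρ, hρ, hρ'⟩ := Metric.nhds_basis_ball.eventually_iff.1
    (eventually_nhdsWithin_iff.1 (g.big (ball_mem_nhds _ hr)))
  set D : Set E := (ball x ρ ∩ Y) \ {x} with hD
  have mD : MapsTo g.e.f D N := fun y hy => ⟨(hρ' hy.1.1 hy.1.2).2, fun h1 =>
    hy.2 (g.e.injOn (hρ' hy.1.1 hy.1.2).1 g.hx h1)⟩
  have DO : D ⊆ g.O := fun y hy => (hρ' hy.1.1 hy.1.2).1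
  have hb' : ∀ y ∈ D, ∀ᶠ w in 𝓝[D] y, b (g.e.f w) = b (g.e.f y) *
      Multiplicative.ofAdd (c (sp T y) (sp T w)) := fun y hy => by
    filter_upwards [hb.comp (g.e.pf.1.mono DO) mD y hy, self_mem_nhdsWithin] with w h1 h2
    rw [h1, g.e.li y (DO hy), g.e.li w (DO h2)]
  have inD : ∀ σ ∈ {σ | σ ∈ KK T Y ∧ a ∈ σ ∧ σ ≠ {a}}, ∀ y, y ∈ ball x ρ ∩ {y | y ∈ Y ∧ sp T y = σ} →
      y ∈ D := fun σ hσ y hy => ⟨⟨hy.1, hy.2.1⟩, fun h1 => hσ.2.2 (by
        rw [← hy.2.2, show y = x from h1, ha])⟩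
  have same : ∀ σ ∈ {σ | σ ∈ KK T Y ∧ a ∈ σ ∧ σ ≠ {a}}, ∀ y ∈ ball x ρ ∩ {y | y ∈ Y ∧ sp T y = σ},
      ∀ w ∈ ball x ρ ∩ {y | y ∈ Y ∧ sp T y = σ}, b (g.e.f y) = b (g.e.f w) := fun σ hσ y hy w hw => by
    refine LCo.eq (f := fun y => b (g.e.f y)) (fun z hz => ?_)
      ((convex_ball x ρ).inter (convex_fib hY σ)).isPreconnected hy hw
    filter_upwards [(hb' z (inD σ hσ z hz)).filter_mono (nhdsWithin_mono _ (inD σ hσ)),
      self_mem_nhdsWithin] with v h1 h2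
    have h3 : c σ σ = 0 := by
      have := hc σ hσ σ hσ σ hσ (Finset.Subset.refl _) (Finset.Subset.refl _)
      exact left_eq_add.1 this
    rw [h1, hz.2.2, h2.2.2, h3, ofAdd_zero, mul_one]
  have rep : ∀ σ ∈ {σ | σ ∈ KK T Y ∧ a ∈ σ ∧ σ ≠ {a}},
      ∃ y, y ∈ ball x ρ ∩ {y | y ∈ Y ∧ sp T y = σ} := fun σ hσ => by
    obtain ⟨y, h1, h2, h3⟩ := ((near hY hxX hσ.1 (by rw [ha]; simpa using hσ.2.1)).and_eventually
      ((show ∀ᶠ y in 𝓝[Y] x, y ∈ ball x ρ from mem_nhdsWithin_of_mem_nhds (ball_mem_nhds x hρ)).and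
        self_mem_nhdsWithin)).exists
    exact ⟨y, h2, h3, h1⟩
  choose! p hp using rep
  refine ⟨fun σ => Multiplicative.toAdd (b (g.e.f (p σ))), fun σ hσ τ hτ hst => ?_⟩
  have h1 := hp σ hσ
  have h2 : ∀ᶠ w in 𝓝[Y] (p σ), w ∈ D → b (g.e.f w) = b (g.e.f (p σ)) *
      Multiplicative.ofAdd (c (sp T (p σ)) (sp T w)) :=
    mem_nhdsWithin_of_mem_nhds (eventually_nhdsWithin_iff.1 (hb' _ (inD σ hσ _ h1)))
  obtain ⟨w, h3, h4, h5, h6⟩ := ((near hY (hY.sub h1.2.1) hτ.1 (h1.2.2.le.trans hst)).and_eventually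
    (h2.and ((show ∀ᶠ w in 𝓝[Y] (p σ), w ∈ ball x ρ from
      mem_nhdsWithin_of_mem_nhds (isOpen_ball.mem_nhds h1.1)).and self_mem_nhdsWithin))).exists
  have h7 : w ∈ ball x ρ ∩ {y | y ∈ Y ∧ sp T y = τ} := ⟨h5, h6, h3⟩
  show Multiplicative.toAdd _ = Multiplicative.toAdd _ + _
  rw [same τ hτ _ (hp τ hτ) w h7, h4 (inD τ hτ w h7), h1.2.2, h3, toAdd_mul, toAdd_ofAdd]

end Crest.Agent.X212.Loc49
end

-- ▼ part X212/Loc49/Main
section

/-!
Row 212, layer T, package G-LOC (helper49), part 3: the local manifold conditions.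
-/

set_option autoImplicit false
set_option linter.style.longLine false
set_option linter.unusedSectionVars false

open Set Metric Filter Topology Module

namespace Crest.Agent.X212.Loc49

open Crest.Agent.R096.Ce_537 Crest.Agent.X212.Tw9 Crest.Agent.X212.Dsc4 Crest.Agent.R096.Bd_416
open Crest.Agent.X212.Prd34 (V P up fl lv Mf)
open Crest.Agent.X212.Dsc37 (Dat Mt)

variable {E : Type} [NormedAddCommGroup E] [NormedSpace ℝ E] {ι : Type} [Fintype ι] [DecidableEq ι]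
  {X : Set E} {T : Tri ι X} {M dM : Set E} {x : E}

theorem supp_eq (y : E) : Geo46.supp T y = sp T y := by
  ext u; simp [Geo46.supp, sp]

theorem simp_eq : Geo46.simp T = KK T X := by
  ext s
  constructor
  · rintro ⟨h1, y, hy, h2⟩
    exact down subC_self ⟨y, hy, rfl⟩ (supp_eq (T := T) y ▸ h2) h1
  · rintro ⟨y, hy, rfl⟩
    exact ⟨sp_nonempty hy, y, hy, (supp_eq y).ge⟩

theorem simpIn_eq {A : Set E} (h : T.Sub A) : Geo46.simpIn T A = KK T (X ∩ A) := by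
  ext s
  constructor
  · rintro ⟨h1, h2⟩
    rw [simp_eq] at h1
    obtain ⟨y, hy, rfl⟩ := h1
    exact ⟨y, ⟨hy, h2 ⟨hy, fun u hu => by rwa [supp_eq] at hu⟩⟩, rfl⟩
  · rintro ⟨y, hy, rfl⟩
    refine ⟨by rw [simp_eq]; exact ⟨y, hy.1, rfl⟩, fun z hz => ?_⟩
    exact ((subC_inter h).cl y hy z hz.1 fun u hu => hz.2 u (by rwa [supp_eq])).2

theorem ropen_nhds {Z : Type*} [TopologicalSpace Z] {W O : Set Z} (h : ROpen W O) {z : Z} (hz : z ∈ O) :
    O ⊆ W ∧ O ∈ 𝓝[W] z := by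
  obtain ⟨A, hA, rfl⟩ := h
  exact ⟨inter_subset_right, by rw [inter_comm]; exact inter_mem_nhdsWithin _ (hA.mem_nhds hz.1)⟩

theorem ch_back (k : Ch M dM) (hx : x ∈ k.O) (hg : X ∈ 𝓝[M] x) :
    ∀ᶠ z in 𝓝[up] (k.e.f x), z ∈ k.O' ∧ k.e.g z ∈ X := by
  have h1 : Tendsto k.e.g (𝓝[k.O'] (k.e.f x)) (𝓝[M] x) := by
    have := (k.e.pg.1 _ (k.e.mf hx)).tendsto_nhdsWithin (k.e.mg.mono_right (ropen_nhds k.opn hx).1)
    rwa [k.e.li x hx] at this
  have h2 := (ropen_nhds k.opn' (k.e.mf hx)).2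
  exact Eventually.and h2 ((h1.eventually hg).filter_mono (nhdsWithin_le_iff.2 h2))

theorem cont_single (z : V) : Continuous fun t : ℝ => (z + Pi.single 2 t : V) :=
  continuous_const.add (ContinuousLinearMap.single ℝ (fun _ : Fin 3 => ℝ) 2).continuous

theorem up_nhds {z : V} (hz : z ∈ up) : up ∈ 𝓝 z ↔ z 2 ≠ 0 := by
  constructor
  · intro h h0
    have h1 : Tendsto (fun t : ℝ => z + Pi.single 2 t) (𝓝 0) (𝓝 z) :=
      (cont_single z).tendsto' 0 z (by simp)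
    obtain ⟨t, h2, h3⟩ := ((show ∀ᶠ t in 𝓝[<] (0 : ℝ), _ from
      mem_nhdsWithin_of_mem_nhds (h1 h)).and self_mem_nhdsWithin).exists
    have h4 : 0 ≤ (z + Pi.single 2 t : V) 2 := h2
    simp only [Pi.add_apply, h0, Pi.single_eq_same, zero_add] at h4
    exact absurd h4 (not_le.2 h3)
  · intro h
    exact mem_of_superset ((isOpen_lt continuous_const (continuous_apply 2)).mem_nhds
      (lt_of_le_of_ne hz (Ne.symm h))) fun y hy => le_of_lt (show 0 < y 2 from hy)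

theorem isClosed_up : IsClosed up := isClosed_le continuous_const (continuous_apply 2)

theorem convex_up : Convex ℝ up := convex_halfSpace_ge (f := fun y : V => y 2)
  ⟨fun _ _ => rfl, fun _ _ => rfl⟩ 0

theorem up_dense : up ⊆ closure (interior up) := fun z hz => by
  have h1 : Tendsto (fun t : ℝ => z + Pi.single 2 t) (𝓝[>] 0) (𝓝 z) :=
    ((cont_single z).tendsto' 0 z (by simp)).mono_left nhdsWithin_le_nhds
  refine mem_closure_of_tendsto h1 ?_
  filter_upwards [self_mem_nhdsWithin] with t ht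
  have h2 : 0 < (z + Pi.single 2 t : V) 2 := by
    simp only [Pi.add_apply, Pi.single_eq_same]
    exact add_pos_of_nonneg_of_pos hz ht
  exact mem_interior_iff_mem_nhds.2 ((up_nhds h2.le).2 h2.ne')

theorem exists_gm3 (hM : MfE M dM) (hXM : X ⊆ M) (hx : x ∈ X) (hg : X ∈ 𝓝[M] x) :
    ∃ g : Gm 3 X up x, (up ∈ 𝓝 (g.e.f x) ↔ x ∉ dM) := by
  obtain ⟨k, hk⟩ := hM.2 x (hXM hx)
  have s1 := (ropen_nhds k.opn' (k.e.mf hk)).1
  refine ⟨⟨k.O ∩ X, _, k.e.restrImage inter_subset_left, ⟨hk, hx⟩, inter_subset_right, ?_,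
    inter_mem (nhdsWithin_mono _ hXM (ropen_nhds k.opn hk).2) self_mem_nhdsWithin, ?_⟩, ?_⟩
  · rintro _ ⟨y, hy, rfl⟩; exact s1 (k.e.mf hy.1)
  · filter_upwards [ch_back k hk hg] with z hz using ⟨_, ⟨k.e.mg hz.1, hz.2⟩, k.e.ri z hz.1⟩
  · exact (up_nhds (s1 (k.e.mf hk))).trans (k.bd x hk).not.symm

theorem lv_pr {z : V} (h : z 2 = 0) : lv 0 ![z 0, z 1] = z := by
  funext i; fin_cases i
  exacts [rfl, rfl, h.symm]

theorem pl_pr {f : E → V} {K : Set E} (h : PLOn f K) : PLOn (fun y => (![f y 0, f y 1] : P)) K :=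
  pl_pi fun i => by
    fin_cases i
    exacts [pl_apply h 0, pl_apply h 1]

theorem pl_lv0 (K : Set P) : PLOn (lv 0) K := pl_pi fun i => by
  fin_cases i
  exacts [pl_apply (plOn_id K) 0, pl_apply (plOn_id K) 1, plOn_const 0 K]

theorem exists_gm2 (hM : MfE M dM) (hXM : X ⊆ M) (hx : x ∈ X ∩ dM) (hg : X ∈ 𝓝[M] x) :
    Nonempty (Gm 2 (X ∩ dM) univ x) := by
  obtain ⟨k, hk⟩ := hM.2 x (hXM hx.1)
  have l1 : ∀ y ∈ k.O ∩ (X ∩ dM), lv 0 ![k.e.f y 0, k.e.f y 1] = k.e.f y := fun y hy =>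
    lv_pr ((k.bd y hy.1).1 hy.2.2)
  refine ⟨⟨k.O ∩ (X ∩ dM), {z | lv 0 z ∈ k.O' ∧ k.e.g (lv 0 z) ∈ X},
    ⟨fun y => ![k.e.f y 0, k.e.f y 1], fun z => k.e.g (lv 0 z), pl_pr (k.e.pf.mono inter_subset_left),
      k.e.pg.comp (pl_lv0 _) fun z hz => hz.1, fun y hy => ?_, fun z hz => ?_, fun y hy => ?_,
      fun z hz => ?_⟩, ⟨hk, hx⟩, inter_subset_right, subset_univ _,
    inter_mem (nhdsWithin_mono _ (inter_subset_left.trans hXM) (ropen_nhds k.opn hk).2)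
      self_mem_nhdsWithin, ?_⟩⟩
  · show lv 0 _ ∈ k.O' ∧ k.e.g (lv 0 _) ∈ X
    rw [l1 y hy, k.e.li y hy.1]; exact ⟨k.e.mf hy.1, hy.2.1⟩
  · exact ⟨k.e.mg hz.1, hz.2, (k.bd _ (k.e.mg hz.1)).2 (by rw [k.e.ri _ hz.1]; rfl)⟩
  · rw [l1 y hy, k.e.li y hy.1]
  · rw [k.e.ri _ hz.1]; funext i; fin_cases i <;> rfl
  · have h1 : Tendsto (lv 0) (𝓝[univ] (![k.e.f x 0, k.e.f x 1] : P)) (𝓝[up] (k.e.f x)) := by
      have := ((pl_lv0 univ).1 ![k.e.f x 0, k.e.f x 1] trivial).tendsto_nhdsWithin (t := up)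
        fun z _ => le_refl (0 : ℝ)
      rwa [l1 x ⟨hk, hx⟩] at this
    exact h1.eventually (ch_back k hk hg)

theorem dimK (hM : MfE M dM) (hXM : X ⊆ M) : ∀ σ ∈ KK T X, σ.card ≤ 3 + 1 := by
  rintro _ ⟨x, hx, rfl⟩
  obtain ⟨k, hk⟩ := hM.2 x (hXM hx)
  exact dim_le subC_self hx (nhdsWithin_mono _ hXM (ropen_nhds k.opn hk).2) k.e.pf.1 k.e.injOn

theorem dimF (hM : MfE M dM) (hXM : X ⊆ M) (hs : T.Sub dM) : ∀ σ ∈ KK T (X ∩ dM), σ.card ≤ 2 + 1 := by
  rintro _ ⟨x, hx, rfl⟩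
  obtain ⟨k, hk⟩ := hM.2 x (hXM hx.1)
  refine dim_le (subC_inter hs) hx (O := k.O ∩ (X ∩ dM))
    (inter_mem (nhdsWithin_mono _ (inter_subset_left.trans hXM) (ropen_nhds k.opn hk).2)
      self_mem_nhdsWithin) (pl_pr (k.e.pf.mono inter_subset_left)).1 fun y hy z hz e => ?_
  refine k.e.injOn hy.1 hz.1 ?_
  rw [← lv_pr ((k.bd y hy.1).1 hy.2.2), ← lv_pr ((k.bd z hz.1).1 hz.2.2)]
  exact congrArg (lv 0) e

theorem eq_single {Y : Set E} {a : ι} (h : ({a} : Finset ι) ∈ KK T Y) : ∃ x ∈ Y, sp T x = {a} := h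

/-- **the local manifold conditions**, in any ambient space -/
theorem ok_loc {G : Type} [AddGroup G] (D : Dat G) {Y : Set E} (T : Tri D.V Y) (hM : MfE M dM)
    (hYM : Y ⊆ M) (hs : T.Sub dM) (hK : D.K = KK T Y) (hF : D.F = KK T (Y ∩ dM))
    (hA : ∀ a ∈ D.A, T.Good M a)
    (hc : Dsc37.Coc Dsc37.sub {σ | σ ∈ D.F ∧ Mt D.A σ} D.g) : D.OK ∧ D.Loc := by
  have gd : ∀ x ∈ Y, Mt D.A (sp T x) → Y ∈ 𝓝[M] x := fun x hx ⟨a, h1, h2⟩ =>
    hA a h2 x hx (mem_sp.1 h1)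
  have dK := dimK (T := T) hM hYM
  have dF := dimF hM hYM hs
  have sF := subC_inter hs
  have uc : (univ : Set (Fin 2 → ℝ)) ⊆ closure (interior univ) := by simp
  refine ⟨⟨?_, ?_, ?_, ?_, ?_, ?_, ?_, ?_, hc⟩, ?_, ?_, ?_, ?_⟩
  · rw [hK]
    exact ⟨by rintro _ ⟨y, hy, rfl⟩; exact sp_nonempty hy, fun σ hσ ρ h1 h2 => down subC_self hσ h1 h2⟩
  · rw [hF]
    exact ⟨by rintro _ ⟨y, hy, rfl⟩; exact sp_nonempty hy.1, fun σ hσ ρ h1 h2 => down sF hσ h1 h2⟩
  · rw [hK, hF]; rintro _ ⟨y, hy, rfl⟩; exact ⟨y, hy.1, rfl⟩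
  · rw [hK]; exact dK
  · rw [hF]; exact dF
  · rw [hK, hF]
    rintro _ ⟨x, hx, rfl⟩ h1 h2 h3
    obtain ⟨g, hg⟩ := exists_gm3 hM hYM hx (gd x hx h2)
    exact (g.count subC_self isClosed_up up_dense h1 dK).1 (hg.2 fun h => h3 ⟨x, ⟨hx, h⟩, rfl⟩)
  · rw [hK, hF]
    rintro _ ⟨x, hx, rfl⟩ h1 h2
    obtain ⟨g, hg⟩ := exists_gm3 hM hYM hx.1 (gd x hx.1 h2)
    exact (g.count subC_self isClosed_up up_dense h1 dK).2 fun h => hg.1 h hx.2
  · rw [hF]
    rintro _ ⟨x, hx, rfl⟩ h1 h2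
    obtain ⟨g⟩ := exists_gm2 hM hYM hx (gd x hx.1 h2)
    exact (g.count sF isClosed_univ uc h1 dF).1 univ_mem
  · rw [hK]
    rintro _ ⟨x, hx, rfl⟩ h2
    obtain ⟨g, -⟩ := exists_gm3 hM hYM hx (gd x hx h2)
    obtain ⟨τ, t1, t2, t3⟩ := g.pure (T := T) subC_self isClosed_up up_dense
    exact ⟨τ, t1, le_antisymm (dK τ t1) t2, t3⟩
  · rw [hK]
    rintro _ ⟨x, hx, rfl⟩ h1 h2
    obtain ⟨g, -⟩ := exists_gm3 hM hYM hx (gd x hx h2)
    exact g.conn subC_self isClosed_up up_dense convex_up (by omega)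
  · rw [hK]
    intro a ha
    by_cases h : ({a} : Finset D.V) ∈ KK T Y
    · obtain ⟨x, hx, h1⟩ := h
      obtain ⟨g, -⟩ := exists_gm3 hM hYM hx (gd x hx ⟨a, by rw [h1]; simp, ha⟩)
      exact g.vert subC_self h1
    · exact fun c _ => ⟨fun _ => 0, fun σ hσ =>
        (h (down subC_self hσ.1 (by simpa using hσ.2.1) (by simp))).elim⟩
  · rw [hF]
    rintro a ha ⟨x, hx, h1⟩
    obtain ⟨g⟩ := exists_gm2 hM hYM hx (gd x hx.1 ⟨a, by rw [h1]; simp, ha⟩)
    have := g.conn sF isClosed_univ uc convex_univ (by rw [h1]; simp)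
    simpa only [h1, Finset.singleton_subset_iff] using this

/-- **(LOC)** -/
theorem locStmt : Geo46.LocStmt := by
  intro Γ _ M dM c X hM g
  refine ok_loc X g.T (mfE_of_mf hM) g.YM g.sub (g.hK.trans simp_eq) (g.hF.trans (simpIn_eq g.sub))
    g.good fun σ hσ ρ hρ τ hτ h1 h2 => ?_
  obtain ⟨x, hx, e⟩ : τ ∈ KK g.T (g.Y ∩ dM) := by rw [← simpIn_eq g.sub, ← g.hF]; exact hτ.1
  have m1 : x ∈ Geo46.ost g.T τ ∩ dM := ⟨⟨hx.1, by rw [supp_eq, e]⟩, hx.2⟩
  have m2 : x ∈ Geo46.ost g.T ρ ∩ dM := ⟨⟨hx.1, by rw [supp_eq, e]; exact h2⟩, hx.2⟩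
  apply Additive.toMul.injective
  rw [toMul_add, g.geq σ hσ.1 hσ.2 τ hτ.1 (h1.trans h2) x m1, g.geq σ hσ.1 hσ.2 ρ hρ.1 h1 x m2,
    g.geq ρ hρ.1 hρ.2 τ hτ.1 h2 x m1]
  group

end Crest.Agent.X212.Loc49
end

-- ▼ part X212/Gcx52/Cx
section

/-!
# X212 / T layer (helper52): simplices are PL balls, subcomplexes are complexes of balls (`CxStmt`)
-/

set_option autoImplicit false
set_option linter.unusedSectionVars false

open Set Metric Topology Module
open scoped Classical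

namespace Crest.Agent.X212.Gcx52

open Crest.Agent.R096.Ce_537 Crest.Agent.R096.Bd_416 Crest.Agent.X212.Geo46
open Crest.Agent.X212.Tw9 (Tri)

/-- the standard simplex is a PL ball -/
theorem isBall_std (κ : Type) [Fintype κ] [Nonempty κ] :
    IsBall (Fintype.card κ - 1) (stdSimplex ℝ κ) {w | w ∈ stdSimplex ℝ κ ∧ ∃ u, w u = 0} := by
  have hn : (0 : ℝ) < Fintype.card κ := by exact_mod_cast Fintype.card_pos
  let S : (κ → ℝ) →ₗ[ℝ] ℝ := ∑ u, LinearMap.proj u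
  have hS : ∀ w, S w = ∑ u, w u := fun w => by simp [S]
  have hr : finrank ℝ (LinearMap.ker S) = Fintype.card κ - 1 := by
    have h := S.finrank_range_add_finrank_ker
    have h1 : Function.Surjective S := fun t => ⟨fun _ => t / Fintype.card κ, by
      rw [hS, Finset.sum_const, Finset.card_univ, nsmul_eq_mul, mul_div_cancel₀ _ hn.ne']⟩
    rw [LinearMap.range_eq_top.2 h1, finrank_top, finrank_self, finrank_fintype_fun_eq_card] at h
    omega
  have k : ∀ (w : κ → ℝ) (u : κ),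
      (-(Fintype.card κ : ℝ) • ContinuousLinearMap.proj (R := ℝ) (φ := fun _ : κ => ℝ) u)
        (w - fun _ => (Fintype.card κ : ℝ)⁻¹) = 1 - Fintype.card κ * w u := fun w u => by
    simp only [smul_apply, ContinuousLinearMap.proj_apply, Pi.sub_apply, smul_eq_mul]
    field_simp
    ring
  rw [← hr]
  refine R096.Pb_715.isBall_core (fun _ => (Fintype.card κ : ℝ)⁻¹) _ (Finset.univ.image fun u =>
    -(Fintype.card κ : ℝ) • ContinuousLinearMap.proj (R := ℝ) (φ := fun _ : κ => ℝ) u)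
    (fun w => ?_) (fun w => ?_) (isCompact_stdSimplex ℝ κ).isBounded
  · simp only [Finset.forall_mem_image, Finset.mem_univ, forall_true_left, k, LinearMap.mem_ker, hS,
      Pi.sub_apply, Finset.sum_sub_distrib, Finset.sum_const, Finset.card_univ, nsmul_eq_mul,
      mul_inv_cancel₀ hn.ne', sub_eq_zero, sub_le_self_iff, mul_nonneg_iff_of_pos_left hn]
    exact and_comm
  · simp only [Finset.exists_mem_image, Finset.mem_univ, true_and, k, sub_eq_self, mul_eq_zero,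
      hn.ne', false_or, mem_ofPred_eq]

variable {E : Type} [NormedAddCommGroup E] [NormedSpace ℝ E] {ι : Type} [Fintype ι] {X : Set E}
  (T : Tri ι X)

/-- extension by zero -/
noncomputable def ex (s : Finset ι) (w : s → ℝ) (u : ι) : ℝ := if h : u ∈ s then w ⟨u, h⟩ else 0

theorem comb_ex {s : Finset ι} (hs : s ∈ simp T) {w : s → ℝ} (hw : w ∈ stdSimplex ℝ s) :
    ∑ u, ex s w u • T.pt u ∈ X ∧ ∀ u', T.be u' (∑ u, ex s w u • T.pt u) = ex s w u' := by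
  refine comb T hs _ (fun u => ?_) ?_ fun u hu => dif_neg hu
  · unfold ex
    split_ifs
    exacts [hw.1 _, le_rfl]
  · rw [← Finset.sum_subset (f := ex s w) s.subset_univ fun u _ hu => dif_neg hu, ← Finset.sum_coe_sort, ← hw.2]
    exact Finset.sum_congr rfl fun u _ => dif_pos u.2

/-- barycentric coordinates of a closed simplex -/
noncomputable def cellE {s : Finset ι} (hs : s ∈ simp T) : PLEquiv (stdSimplex ℝ s) (cell T s) where
  f := fun w => ∑ u, ex s w u • T.pt u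
  g := fun y u => T.be u y
  pf := pl_sum _ fun u _ => by
    unfold ex
    split_ifs with h
    · exact pl_clm (pl_apply (plOn_id _) (⟨u, h⟩ : s)) ((ContinuousLinearMap.id ℝ ℝ).smulRight (T.pt u))
    · exact plOn_const _ _
  pg := pl_pi fun u => (T.pl u).mono (cell_sub T _)
  mf := fun w hw => ⟨(comb_ex T hs hw).1, fun u hu => by
    rw [mem_supp, (comb_ex T hs hw).2] at hu
    by_contra h
    exact hu.ne' (dif_neg h)⟩
  mg := fun y hy => ⟨fun u => T.nn y hy.1 u, by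
    rw [Finset.sum_coe_sort s fun u => T.be u y, ← T.sum y hy.1]
    exact Finset.sum_subset s.subset_univ fun u _ hu => (not_mem_supp T hy.1).1 fun h => hu (hy.2 u h)⟩
  li := fun w hw => funext fun u => ((comb_ex T hs hw).2 u).trans (dif_pos u.2)
  ri := fun y hy => (Finset.sum_congr rfl fun u _ => by
    unfold ex
    split_ifs with h
    · rfl
    · rw [(not_mem_supp T hy.1).1 fun h' => h (hy.2 u h')]).trans (T.rep y hy.1)

/-- **closed simplices are PL balls** -/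
theorem isBall_cell {s : Finset ι} (hs : s ∈ simp T) :
    IsBall (s.card - 1) (cell T s) {y | y ∈ X ∧ supp T y ⊂ s} := by
  have : Nonempty s := hs.1.to_subtype
  have h := (isBall_std s).map (cellE T hs)
  rw [Fintype.card_coe] at h
  convert h using 1
  ext y
  constructor
  · rintro ⟨hy, h1⟩
    obtain ⟨u, hu, h2⟩ := Finset.exists_of_ssubset h1
    have h3 : y ∈ cell T s := ⟨hy, h1.1⟩
    exact ⟨_, ⟨(cellE T hs).mg h3, ⟨u, hu⟩, (not_mem_supp T hy).1 h2⟩, (cellE T hs).ri y h3⟩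
  · rintro ⟨w, ⟨hw, u, hu⟩, rfl⟩
    have h3 := (cellE T hs).mf hw
    refine ⟨h3.1, (Finset.ssubset_iff_of_subset h3.2).2 ⟨u, u.2, (not_mem_supp T h3.1).2 ?_⟩⟩
    exact (congrFun ((cellE T hs).li w hw) u).trans hu

variable {T} {𝒮 : Set (Finset ι)}

theorem below (hd : ∀ s ∈ 𝒮, ∀ t : Finset ι, t ⊆ s → t.Nonempty → t ∈ 𝒮) (s : 𝒮) :
    ⋃ j ∈ {j : 𝒮 | j < s}, cell T j.1 = {y | y ∈ X ∧ supp T y ⊂ s.1} := by
  ext y
  simp only [mem_iUnion, mem_ofPred_eq]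
  exact ⟨fun ⟨j, hj, hy⟩ => ⟨hy.1, lt_of_le_of_lt (show supp T y ⊆ j.1 from hy.2) hj⟩,
    fun ⟨hy, h⟩ => ⟨⟨_, hd _ s.2 _ h.1 (supp_ne T hy)⟩, h, self_mem_cell T hy⟩⟩

/-- the open cells are the points with given support -/
theorem opn_iff (hd : ∀ s ∈ 𝒮, ∀ t : Finset ι, t ⊆ s → t.Nonempty → t ∈ 𝒮) {s : 𝒮} {y : E} :
    Opn (fun s : 𝒮 => cell T s.1) s y ↔ y ∈ X ∧ supp T y = s.1 := by
  refine ⟨fun h => ⟨h.1.1, ?_⟩, fun h => ⟨⟨h.1, h.2.le⟩, fun j hj hy => ?_⟩⟩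
  · by_contra h1
    have h2 : supp T y ⊆ s.1 := h.1.2
    exact h.2 ⟨_, hd _ s.2 _ h2 (supp_ne T h.1.1)⟩ (lt_of_le_of_ne h2 fun e => h1 (congrArg Subtype.val e))
      (self_mem_cell T h.1.1)
  · exact hj.not_ge (show s.1 ⊆ j.1 from h.2 ▸ hy.2)

/-- **(CX)** -/
theorem cxStmt : CxStmt := by
  intro E _ _ _ ι _ X T 𝒮 hS hd
  refine ⟨fun s => ?_, fun i j h => ?_, fun i j y hi hj => ?_, fun s y hy => ?_, fun y hy => ?_,
    fun _ _ => ⟨1, one_pos, toFinite _⟩⟩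
  · rw [below hd]
    exact isBall_cell T (hS s.2)
  · have h1 : j.1.card < i.1.card := Finset.card_lt_card h
    have h2 := (hS j.2).1.card_pos
    omega
  · exact Subtype.ext (((opn_iff hd).1 hi).2.symm.trans ((opn_iff hd).1 hj).2)
  · exact ⟨hy.1, hd _ s.2 _ hy.2 (supp_ne T hy.1)⟩
  · exact ⟨⟨_, hy.2⟩, self_mem_cell T hy.1⟩

end Crest.Agent.X212.Gcx52
end

-- ▼ part X212/Gcx52/Push
section

/-!
# X212 / T layer (helper52): pushing off the boundary (`PushStmt`)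
-/

set_option autoImplicit false

open Set Metric Topology Filter
open scoped Classical

namespace Crest.Agent.X212.Gcx52

open Crest.Agent.R096.Ce_537 Crest.Agent.X212.Geo46
open Crest.Agent.X212.Prd34 (V P up fl Mf)

/-- a homotopy of `M` that starts at the identity, never moves a point into `dM` and moves `A` off `dM` -/
def Psh (M dM A : Set V) : Prop := ∃ p : ℝ × V → V, ContinuousOn p (Icc 0 1 ×ˢ univ) ∧
  (∀ y, p (0, y) = y) ∧ ∀ s ∈ Icc (0 : ℝ) 1, ∀ y ∈ M, p (s, y) ∈ M ∧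
    (p (s, y) ∈ dM → p (s, y) = y ∧ (0 < s → y ∉ A))

variable {M dM A A' : Set V}

theorem Psh.mono (h : Psh M dM A) (h' : A' ⊆ A) : Psh M dM A' := by
  obtain ⟨p, h1, h2, h3⟩ := h
  exact ⟨p, h1, h2, fun s hs y hy => ⟨(h3 s hs y hy).1, fun k =>
    ⟨((h3 s hs y hy).2 k).1, fun s0 a => ((h3 s hs y hy).2 k).2 s0 (h' a)⟩⟩⟩

theorem psh_compl (M dM : Set V) : Psh M dM dMᶜ :=
  ⟨Prod.snd, continuousOn_snd, fun _ => rfl, fun _ _ _ hy => ⟨hy, fun k => ⟨rfl, fun _ a => a k⟩⟩⟩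

theorem Psh.union (h : Psh M dM A) (h' : Psh M dM A') : Psh M dM (A ∪ A') := by
  obtain ⟨p, h1, h2, h3⟩ := h
  obtain ⟨q, k1, k2, k3⟩ := h'
  refine ⟨fun z => q (z.1, p z), k1.comp (continuousOn_fst.prodMk h1) fun z hz => ⟨hz.1, trivial⟩,
    fun y => by simp only [h2, k2], fun s hs y hy => ⟨(k3 s hs _ (h3 s hs y hy).1).1, fun k => ?_⟩⟩
  obtain ⟨a1, a2⟩ := (k3 s hs _ (h3 s hs y hy).1).2 k
  obtain ⟨b1, b2⟩ := (h3 s hs y hy).2 (a1 ▸ k)
  exact ⟨a1.trans b1, fun s0 a => a.elim (b2 s0) (b1 ▸ a2 s0)⟩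

/-- the push in the model cube -/
noncomputable def mv (r s : ℝ) (z : V) : V := z + (s * max 0 (r - ‖z‖)) • Pi.single 2 1

theorem mv_two (r s : ℝ) (z : V) : mv r s z 2 = z 2 + s * max 0 (r - ‖z‖) := by simp [mv]

theorem mv_eq {r s : ℝ} {z : V} (h : s * max 0 (r - ‖z‖) = 0) : mv r s z = z := by simp [mv, h]

theorem mv_mem {r s : ℝ} (hr : r ≤ 1) (hs : s ∈ Icc (0 : ℝ) 1) {z : V} (hz : z ∈ cube 3) :
    mv r s z ∈ cube 3 := by
  rw [mem_closedBall_zero_iff] at hz ⊢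
  refine (norm_add_le _ _).trans ?_
  rw [norm_smul, Pi.norm_single, norm_one, mul_one,
    Real.norm_of_nonneg (mul_nonneg hs.1 (le_max_left _ _))]
  have h1 := mul_le_of_le_one_left (le_max_left 0 (r - ‖z‖)) hs.2
  have h2 : max 0 (r - ‖z‖) ≤ 1 - ‖z‖ := max_le (by linarith) (by linarith)
  linarith

theorem psh_loc (h : Mf M dM) {x : V} (hx : x ∈ M) : ∃ U ∈ 𝓝 x, Psh M dM U := by
  by_cases hd : x ∈ dM
  swap
  · exact ⟨_, h.2.1.mem_nhds ⟨hx, hd⟩, (psh_compl M dM).mono fun _ k => k.2⟩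
  obtain ⟨B, e, e0, hB, hM, hD⟩ := h.2.2 x hd
  have c0 : (0 : V) ∈ cube 3 := mem_closedBall_self zero_le_one
  have h1 : e.f ⁻¹' interior B ∈ 𝓝 (0 : V) :=
    ((e.pf.1 0 c0).continuousAt (closedBall_mem_nhds 0 one_pos)).preimage_mem_nhds
      (e0 ▸ interior_mem_nhds.2 hB)
  obtain ⟨r, r0, hr⟩ := nhds_basis_closedBall.mem_iff.1 (inter_mem h1 (closedBall_mem_nhds 0 one_pos))
  have r1 : r ≤ 1 := by
    have : (Pi.single 2 r : V) ∈ closedBall (0 : V) r := by simp [Pi.norm_single, abs_of_pos r0]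
    simpa [Pi.norm_single, abs_of_pos r0] using (hr this).2
  have hK : IsClosed (e.f '' closedBall 0 r) :=
    ((isCompact_closedBall 0 r).image_of_continuousOn (e.pf.1.mono fun _ k => (hr k).2)).isClosed
  have g0 : e.g x = 0 := e0 ▸ e.li 0 c0
  have hU : {y | y ∈ B ∧ ‖e.g y‖ < r} ∈ 𝓝 x := inter_mem hB
    (((e.pg.1 x (mem_of_mem_nhds hB)).continuousAt hB).norm.eventually (gt_mem_nhds (by simp [g0, r0])))
  refine ⟨_, hU, fun z => if z.2 ∈ B then e.f (mv r z.1 (e.g z.2)) else z.2, fun z hz => ?_,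
    fun y => ?_, fun s hs y hy => ?_⟩
  · by_cases k : z.2 ∈ interior B
    · have k1 : ContinuousOn (fun z : ℝ × V => e.f (mv r z.1 (e.g z.2))) (Icc 0 1 ×ˢ B) := by
        have k2 : ContinuousOn (fun z : ℝ × V => e.g z.2) (Icc 0 1 ×ˢ B) :=
          e.pg.1.comp continuousOn_snd fun _ a => a.2
        refine e.pf.1.comp (k2.add ((continuousOn_fst.mul (continuousOn_const.sup
          (continuousOn_const.sub k2.norm))).smul continuousOn_const)) fun w hw => ?_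
        exact mv_mem r1 hw.1 (e.mg hw.2)
      have k3 : Icc (0 : ℝ) 1 ×ˢ B ∈ 𝓝[Icc 0 1 ×ˢ univ] z := by
        filter_upwards [self_mem_nhdsWithin, mem_nhdsWithin_of_mem_nhds
          (continuousAt_snd.preimage_mem_nhds (mem_interior_iff_mem_nhds.1 k))] with w a b using ⟨a.1, b⟩
      exact ((k1 z ⟨hz.1, interior_subset k⟩).congr (fun w hw => if_pos hw.2)
        (if_pos (interior_subset k))).mono_of_mem_nhdsWithin k3
    · have k1 : ∀ w : ℝ × V, w.2 ∉ e.f '' closedBall 0 r →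
          (if w.2 ∈ B then e.f (mv r w.1 (e.g w.2)) else w.2) = w.2 := fun w hw => by
        split_ifs with a
        · rw [mv_eq, e.ri _ a]
          rw [max_eq_left, mul_zero]
          exact sub_nonpos.2 (le_of_not_ge fun b => hw ⟨_, mem_closedBall_zero_iff.2 b, e.ri _ a⟩)
        · rfl
      have k2 : z.2 ∉ e.f '' closedBall 0 r := fun ⟨w, a, b⟩ => k (b ▸ (hr a).1)
      exact (continuousAt_snd.congr (eventually_of_mem (continuousAt_snd.preimage_mem_nhds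
        (hK.isOpen_compl.mem_nhds k2)) fun w hw => (k1 w hw).symm)).continuousWithinAt
  · dsimp only
    split_ifs with a
    · rw [mv_eq (zero_mul _), e.ri _ a]
    · rfl
  · dsimp only
    split_ifs with a
    swap
    · exact ⟨hy, fun _ => ⟨rfl, fun _ b => a b.1⟩⟩
    obtain ⟨z, ⟨hz, z2⟩, rfl⟩ := hM.le ⟨a, hy⟩
    have k0 := mul_nonneg hs.1 (le_max_left 0 (r - ‖z‖))
    have k1 := mv_mem r1 hs hz
    rw [e.li z hz]
    refine ⟨(hM.ge ⟨_, ⟨k1, show 0 ≤ mv r s z 2 from mv_two r s z ▸ add_nonneg z2 k0⟩, rfl⟩).2,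
      fun k => ?_⟩
    obtain ⟨w, ⟨hw, w2⟩, k2⟩ := hD.le ⟨e.mf k1, k⟩
    have k3 : z 2 + s * max 0 (r - ‖z‖) = 0 := by rw [← mv_two, ← e.injOn hw k1 k2]; exact w2
    have k4 : s * max 0 (r - ‖z‖) = 0 := le_antisymm (by linarith [show 0 ≤ z 2 from z2]) k0
    refine ⟨by rw [mv_eq k4], fun s0 b => ?_⟩
    have k5 : ‖z‖ < r := e.li z hz ▸ b.2
    exact (mul_pos s0 (lt_max_of_lt_right (sub_pos.2 k5))).ne' k4

theorem psh_of_isCompact (h : Mf M dM) (hA : IsCompact A) (hs : A ⊆ M) : Psh M dM A :=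
  hA.induction_on ((psh_compl M dM).mono (empty_subset _)) (fun _ _ a b => b.mono a)
    (fun _ _ => Psh.union) fun _ hx =>
      let ⟨U, a, b⟩ := psh_loc h (hs hx)
      ⟨U, mem_nhdsWithin_of_mem_nhds a, b⟩

/-- **(PUSH)** -/
theorem pushStmt : PushStmt := by
  intro M dM f h hf hm
  obtain ⟨p, h1, h2, h3⟩ := psh_of_isCompact h
    ((isCompact_closedBall 0 1).image_of_continuousOn hf) hm.image_subset
  have k : ∀ x ∈ cube 2, 1 - ‖x‖ ∈ Icc (0 : ℝ) 1 := fun x hx =>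
    ⟨sub_nonneg.2 (mem_closedBall_zero_iff.1 hx), sub_le_self _ (norm_nonneg _)⟩
  refine ⟨fun x => p (1 - ‖x‖, f x), h1.comp ((continuousOn_const.sub continuous_norm.continuousOn).prodMk hf)
    fun x hx => ⟨k x hx, trivial⟩, fun x hx => (h3 _ (k x hx) _ (hm hx)).1, fun x hx => ?_,
    fun x hx hd => ?_⟩
  · simp only [mem_sphere_zero_iff_norm.1 hx, sub_self, h2]
  · by_contra a
    refine ((h3 _ (k x hx) _ (hm hx)).2 hd).2 ((k x hx).1.lt_of_ne fun b => a ?_) ⟨x, hx, rfl⟩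
    exact mem_sphere_zero_iff_norm.2 (by linarith)

end Crest.Agent.X212.Gcx52
end

-- ▼ part X212/Tw9/Univ

/-!
# X212 / T layer (helper9): the universal cocycle, `LTc → LTStmt`
-/

set_option autoImplicit false

open Set Metric Topology Filter unitInterval CategoryTheory

namespace Crest.Agent.X212.Tw9

open Crest.Agent.R096.Ce_537
open Crest.Agent.X212.Prd34 (V P up fl Mf)
open Crest.Agent.X212.Lev33
open Crest.Agent.X212.Dsc4 (ROpen Ess)

/-- the universal path functional -/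
theorem exists_pf {Y : Type} [TopologicalSpace Y] (x0 : Y) :
    ∃ (Γ : Type) (_ : Group Γ) (φ : ∀ x y : Y, Path x y → Γ), PF univ φ ∧
      ∀ y (p q : Path x0 y), φ x0 y p = φ x0 y q → p.Homotopic q := by
  classical
  let a : Y → FundamentalGroupoid Y := FundamentalGroupoid.mk
  let m : ∀ {x y : Y}, Path x y → (a x ⟶ a y) := fun p => Path.Homotopic.Quotient.mk p
  have mt : ∀ {x y z : Y} (p : Path x y) (q : Path y z), m (p.trans q) = m p ≫ m q :=
    fun p q => rfl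
  refine ⟨a x0 ⟶ a x0, inferInstance, fun x y p => if h : Joined x0 x ∧ Joined x0 y then
    m h.1.somePath ≫ m p ≫ inv (m h.2.somePath) else 1, ⟨fun x y z p q _ _ => ?_,
    fun x y p q F _ => ?_⟩, fun y p q h => ?_⟩
  · by_cases h : Joined x0 x
    · have h1 : Joined x0 y := h.trans ⟨p⟩
      have h2 : Joined x0 z := h1.trans ⟨q⟩
      rw [dif_pos ⟨h, h2⟩, dif_pos ⟨h, h1⟩, dif_pos ⟨h1, h2⟩, mt, Groupoid.vertexGroup_mul]
      simp
    · have h1 : ¬ Joined x0 y := fun k => h (k.trans ⟨p.symm⟩)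
      rw [dif_neg fun k => h k.1, dif_neg fun k => h k.1, dif_neg fun k => h1 k.1, mul_one]
  · have : m p = m q := Path.Homotopic.Quotient.eq.2 ⟨F⟩
    simp only [this]
  · have h1 : Joined x0 x0 ∧ Joined x0 y := ⟨Joined.refl _, ⟨p⟩⟩
    simp only [dif_pos h1] at h
    have : m p = m q := (cancel_mono _).1 ((cancel_epi _).1 h)
    exact Path.Homotopic.Quotient.eq.1 this

theorem lcv_bd {M dM : Set V} (h : Mf M dM) : LCv dM := by
  intro x hx W hW
  obtain ⟨B, e, e0, hB, -, hd⟩ := h.2.2 x hx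
  have lin : Convex ℝ fl := convex_hyperplane (f := fun z : V => z 2) ⟨fun _ _ => rfl, fun _ _ => rfl⟩ 0
  refine lcv_at ((convex_closedBall _ _).inter lin)
    (e.restrImage (inter_subset_left : cube 3 ∩ fl ⊆ cube 3)) (hd ▸ inter_subset_right)
    (hd ▸ ⟨mem_of_mem_nhds hB, hx⟩) ?_ hW
  rw [← hd, inter_comm]
  exact inter_mem_nhdsWithin _ hB

theorem lcv_sub {X : Type} [TopologicalSpace X] {S : Set X} (h : LCv S) :
    LCv (univ : Set S) := by
  classical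
  intro x _ W hW
  obtain ⟨W', hW', hs⟩ := (mem_nhds_subtype S x W).1 hW
  obtain ⟨N, h1, h2, n, K, f, g, hK, hf, hg, mf, mg, e⟩ := h x x.2 W' hW'
  refine ⟨Subtype.val ⁻¹' N, ?_, fun y hy => ⟨hs (h2 hy).1, trivial⟩, n, K,
    fun k => if hk : f k ∈ S then ⟨f k, hk⟩ else x, fun y => g y, hK, ?_,
    hg.comp continuous_subtype_val.continuousOn fun y hy => hy, fun k hk => ?_,
    fun y hy => mg hy, fun y hy => ?_⟩
  · rw [nhdsWithin_univ]; exact preimage_coe_mem_nhds_subtype.2 h1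
  · refine IsInducing.subtypeVal.continuousOn_iff.2 (hf.congr fun k hk => ?_)
    simp only [Function.comp, dif_pos (h2 (mf hk)).2]
  · simp only [mem_preimage, dif_pos (h2 (mf hk)).2]; exact mf hk
  · apply Subtype.ext
    simp only [dif_pos (h2 (mf (mg hy))).2]; exact e y hy

/-- the two ends of the antidiagonal at height `t` -/
noncomputable def mm (t : ℝ) : ℝ := min (4 * t - 1) 1
noncomputable def nn (t : ℝ) : ℝ := max (4 * t - 3) (-1)

/-- the square swept by antidiagonals -/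
noncomputable def qq (s t : ℝ) : P := ![(1 - s) * mm t + s * nn t, (1 - s) * nn t + s * mm t]

theorem mm_add (t : ℝ) : mm t + nn t = 4 * t - 2 := by
  unfold mm nn
  rcases le_total (4 * t) 2 with h | h
  · rw [min_eq_left (by linarith), max_eq_right (by linarith)]; ring
  · rw [min_eq_right (by linarith), max_eq_left (by linarith)]; ring

theorem qq_cont : Continuous fun z : ℝ × ℝ => qq z.1 z.2 := by
  refine continuous_pi fun i => ?_
  fin_cases i <;> simp only [qq, mm, nn] <;> simp <;> fun_prop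

theorem qq_sph {t : ℝ} (h0 : 0 ≤ t) (h1 : t ≤ 1) : qq 0 t ∈ sph 2 ∧ qq 1 t ∈ sph 2 := by
  have a : |mm t| ≤ 1 := abs_le.2 ⟨le_min (by linarith) (by norm_num), min_le_right _ _⟩
  have b : |nn t| ≤ 1 := abs_le.2 ⟨le_max_right _ _, max_le (by linarith) (by norm_num)⟩
  have c : |mm t| = 1 ∨ |nn t| = 1 := by
    unfold mm nn
    rcases le_total (4 * t) 2 with h | h
    · right; rw [max_eq_right (by linarith)]; simp
    · left; rw [min_eq_right (by linarith)]; simp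
  simp only [mem_sph2, mem_cube, Fin.forall_fin_two, qq]
  simp [a, b, c, c.symm]

theorem qq_fib {s t s' t' : ℝ} (h0 : 0 ≤ t) (h1 : t ≤ 1) (h : qq s t = qq s' t') :
    t = t' ∧ (s = s' ∨ t = 0 ∨ t = 1) := by
  have a : (1 - s) * mm t + s * nn t = (1 - s') * mm t' + s' * nn t' := congrFun h 0
  have b : (1 - s) * nn t + s * mm t = (1 - s') * nn t' + s' * mm t' := congrFun h 1
  have e : t = t' := by linarith [mm_add t, mm_add t']
  subst e
  refine ⟨rfl, ?_⟩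
  have c : (s - s') * (mm t - nn t) = 0 := by linarith
  rcases mul_eq_zero.1 c with c | c
  · exact Or.inl (sub_eq_zero.1 c)
  · right
    unfold mm nn at c
    rcases le_total (4 * t) 2 with h | h
    · rw [min_eq_left (by linarith), max_eq_right (by linarith)] at c; left; linarith
    · rw [min_eq_right (by linarith), max_eq_left (by linarith)] at c; right; linarith

theorem qq_sur {x : P} (hx : x ∈ cube 2) : ∃ s t : I, qq s t = x ∧ (x ∈ sph 2 → s = 0 ∨ s = 1) := by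
  have h0 := abs_le.1 (mem_cube.1 hx 0)
  have h1 := abs_le.1 (mem_cube.1 hx 1)
  let t : I := ⟨(x 0 + x 1 + 2) / 4, by constructor <;> linarith⟩
  have em : mm t = min (x 0 + x 1 + 1) 1 := by unfold mm; congr 1; simp only [t]; ring
  have en : nn t = max (x 0 + x 1 - 1) (-1) := by unfold nn; congr 1; simp only [t]; ring
  have ea : mm t + nn t = x 0 + x 1 := by rw [mm_add]; simp only [t]; ring
  have key : ∀ s : ℝ, (1 - s) * mm t + s * nn t = x 0 → qq s t = x := fun s hs => by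
    ext i
    fin_cases i
    · exact hs
    · show (1 - s) * nn t + s * mm t = x 1
      linarith
  by_cases c0 : x 0 = mm t
  · exact ⟨0, t, key _ (by simp [c0]), fun _ => Or.inl rfl⟩
  by_cases c1 : x 0 = nn t
  · exact ⟨1, t, key _ (by simp [c1]), fun _ => Or.inr rfl⟩
  have a : x 0 < mm t := lt_of_le_of_ne (by rw [em]; exact le_min (by linarith) h0.2) c0
  have b : nn t < x 0 := lt_of_le_of_ne (by rw [en]; exact max_le (by linarith) h0.1) (Ne.symm c1)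
  have d : 0 < mm t - nn t := by linarith
  refine ⟨⟨(mm t - x 0) / (mm t - nn t), div_nonneg (by linarith) d.le,
    (div_le_one d).2 (by linarith)⟩, t, key _ (by simp only; field_simp; ring), fun hs => ?_⟩
  exfalso
  rw [em, lt_min_iff] at a
  rw [en, max_lt_iff] at b
  rcases (mem_sph2.1 hs).2 with k | k <;> rcases abs_eq zero_le_one |>.1 k with k | k <;> linarith

/-- a homotopy between the two halves of the boundary fills the square -/
theorem null_of_homotopy {F : Set V} {f : P → V} (H : I × I → V) (hc : Continuous H)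
    (hm : ∀ z, H z ∈ F) (h0 : ∀ t, H (0, t) = f (qq 0 t)) (h1 : ∀ t, H (1, t) = f (qq 1 t))
    (e0 : ∀ s s', H (s, 0) = H (s', 0)) (e1 : ∀ s s', H (s, 1) = H (s', 1)) :
    Null F f (cube 2) (sph 2) := by
  classical
  let q : I × I → P := fun z => qq z.1 z.2
  have qc : Continuous q := qq_cont.comp (f := fun z : I × I => ((z.1 : ℝ), (z.2 : ℝ))) (by fun_prop)
  have fib : ∀ z z', q z = q z' → H z = H z' := by
    rintro ⟨s, t⟩ ⟨s', t'⟩ e
    obtain ⟨a, b⟩ := qq_fib t.2.1 t.2.2 e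
    obtain rfl : t = t' := Subtype.ext a
    rcases b with b | b | b
    · rw [(Subtype.ext b : s = s')]
    · rw [(Subtype.ext b : t = 0)]; exact e0 _ _
    · rw [(Subtype.ext b : t = 1)]; exact e1 _ _
  let g : P → V := fun x => H (Function.invFun q x)
  have gq : ∀ z, g (q z) = H z := fun z => fib _ _ (Function.invFun_eq ⟨z, rfl⟩)
  refine ⟨g, continuousOn_iff_isClosed.2 fun C hC => ⟨q '' (H ⁻¹' C),
    ((hC.preimage hc).isCompact.image qc).isClosed, ?_⟩, fun x _ => hm _, fun x hx => ?_⟩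
  · ext x
    constructor
    · rintro ⟨a, b⟩
      obtain ⟨s, t, rfl, -⟩ := qq_sur b
      exact ⟨⟨(s, t), by rw [mem_preimage, ← gq]; exact a, rfl⟩, b⟩
    · rintro ⟨⟨z, a, rfl⟩, b⟩
      exact ⟨by rw [mem_preimage, gq]; exact a, b⟩
  · obtain ⟨s, t, e, k⟩ := qq_sur (sphere_subset_closedBall hx)
    rw [← e]
    rcases k hx with rfl | rfl
    · exact (gq (0, t)).trans (h0 t)
    · exact (gq (1, t)).trans (h1 t)

/-- **(UNIV)** -/
theorem lt_of_ltc (h : LTc) : LTStmt := by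
  classical
  intro M dM hM f hf hfM hfd hn
  have sc : sph 2 ⊆ cube 2 := sphere_subset_closedBall
  let x0 : dM := ⟨f (qq 0 0), hfd (qq_sph le_rfl zero_le_one).1⟩
  let ρ : V → dM := fun x => if hx : x ∈ dM then ⟨x, hx⟩ else x0
  have ρv : ∀ x ∈ dM, (ρ x).1 = x := fun x hx => by simp only [ρ, dif_pos hx]
  have ρc : ContinuousOn ρ dM :=
    IsInducing.subtypeVal.continuousOn_iff.2 (continuousOn_id.congr fun x hx => ρv x hx)
  obtain ⟨Γ, _, φ, hφ, hu⟩ := exists_pf (ρ (f (qq 0 0)))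
  obtain ⟨c, hc, hc'⟩ := hφ.exists_coc (lcv_sub (lcv_bd hM)).lsc
  have hc2 : Coc dM fun x y => c (ρ x) (ρ y) := hc.comp ρc (mapsTo_univ _ _)
  obtain ⟨D, h1, h2, -, h4⟩ := h Γ M dM dM _ f hM ⟨univ, isOpen_univ, (univ_inter _).symm⟩ hc2 hf hfM
    hfd (by
      rintro ⟨b, hb⟩
      have qc : ∀ s : ℝ, Continuous fun t : ℝ => qq s t := fun s =>
        qq_cont.comp (f := fun t : ℝ => (s, t)) (by fun_prop)
      have pc : ∀ s : ℝ, (∀ t : I, qq s t ∈ sph 2) → Continuous fun t : I => ρ (f (qq s t)) :=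
        fun s hs => (ρc.comp (hf.mono sc) hfd).comp_continuous
          ((qc s).comp continuous_subtype_val) hs
      have q0 : qq 1 0 = qq 0 0 := by ext i; fin_cases i <;> norm_num [qq, mm, nn]
      have q1 : qq 1 1 = qq 0 1 := by ext i; fin_cases i <;> norm_num [qq, mm, nn]
      let p0 : Path (ρ (f (qq 0 0))) (ρ (f (qq 0 1))) :=
        ⟨⟨_, pc 0 fun t => (qq_sph t.2.1 t.2.2).1⟩, rfl, rfl⟩
      let p1 : Path (ρ (f (qq 0 0))) (ρ (f (qq 0 1))) :=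
        ⟨⟨_, pc 1 fun t => (qq_sph t.2.1 t.2.2).2⟩, by rw [← q0]; rfl, by rw [← q1]; rfl⟩
      have ho : ∀ (s : ℝ) (p : Path (ρ (f (qq 0 0))) (ρ (f (qq 0 1)))),
          (∀ t ∈ Icc (0 : ℝ) 1, qq s t ∈ sph 2) → (∀ t : I, p t = ρ (f (qq s t))) →
          φ _ _ p = (b (qq s 0))⁻¹ * b (qq s 1) := fun s p hs hp => by
        rw [← hφ.hol_eq hc' p fun _ => trivial, hol_congr hc (path_cont p) (mapsTo_univ _ _)
          (γ' := fun t => ρ (f (qq s t))) fun t ht => by rw [p.extend_apply ht, hp]]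
        exact hol_prim hb (qc s).continuousOn hs
      obtain ⟨H⟩ := hu _ p0 p1 (by
        rw [ho 0 p0 (fun t ht => (qq_sph ht.1 ht.2).1) fun _ => rfl,
          ho 1 p1 (fun t ht => (qq_sph ht.1 ht.2).2) fun _ => rfl, q0, q1])
      refine hn (null_of_homotopy (fun z => (H z).1) (continuous_subtype_val.comp H.continuous)
        (fun z => (H z).2) (fun t => ?_) (fun t => ?_) (fun s s' => ?_) fun s s' => ?_)
      · rw [H.apply_zero]; exact ρv _ (hfd (qq_sph t.2.1 t.2.2).1)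
      · rw [H.apply_one]; exact ρv _ (hfd (qq_sph t.2.1 t.2.2).2)
      · simp only [H.source]
      · simp only [H.target])
  refine ⟨D, _, h1, h2, rfl, fun ⟨g, g1, g2, g3⟩ => h4 ?_⟩
  obtain ⟨b, hb⟩ := (cvx_ball h1).tr _ (hc2.comp g1 g2)
  exact ⟨b, (hb.mono inter_subset_left).congr (geq_of_eq fun x hx y hy => by
    rw [g3 hx, g3 hy]; rfl)⟩

end Crest.Agent.X212.Tw9
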